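import Vale.Agent.P043.Rect.Defs
import Vale.Agent.P043.Rows.Boxes

/-!
Helper for P043: tilings of the plane up to null sets by unions of rectangles with real coordinates
are exact tilings by half-open boxes.
-/

namespace Vale.Agent.P043.Rect

open MeasureTheory Pointwise Vale.Agent.P043.Rows

set_option linter.unusedSectionVars false

variable {ι : Type} [Fintype ι] {l r s t : ι → ℝ} {W H : ℝ}

/-- The half-open boxes. -/
def boxSet (l r s t : ι → ℝ) : Set (ℝ × ℝ) := ⋃ i, Set.Ico (l i) (r i) ×ˢ Set.Ico (s i) (t i)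

/-- The union of the rectangles `[a, b] × [c, d]`, `((a, b), (c, d)) ∈ R`. -/
def rectSet (R : Finset ((ℝ × ℝ) × (ℝ × ℝ))) : Set (ℝ × ℝ) :=
  ⋃ ρ ∈ R, Set.Icc ρ.1.1 ρ.1.2 ×ˢ Set.Icc ρ.2.1 ρ.2.2

theorem mem_boxSet {z : ℝ × ℝ} :
    z ∈ boxSet l r s t ↔ ∃ i, (l i ≤ z.1 ∧ z.1 < r i) ∧ s i ≤ z.2 ∧ z.2 < t i := by
  simp [boxSet]

/-- A box of a translate, as membership. -/
theorem sub_mem_boxSet {a z : ℝ × ℝ} : z - a ∈ boxSet l r s t ↔
    ∃ i, (a.1 + l i ≤ z.1 ∧ z.1 < a.1 + r i) ∧ a.2 + s i ≤ z.2 ∧ z.2 < a.2 + t i := by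
  rw [mem_boxSet]
  refine exists_congr fun i => ?_
  simp only [Prod.fst_sub, Prod.snd_sub]
  constructor <;> rintro ⟨⟨h1, h2⟩, h3, h4⟩ <;> refine ⟨⟨?_, ?_⟩, ?_, ?_⟩ <;> linarith

theorem countable_of_ae (hs : IsBoxShape l r s t W H) {Ω A : Set (ℝ × ℝ)}
    (hsub : boxSet l r s t ⊆ Ω) (hA : TilesUpToNull Ω A) :
    A.Countable ∧ ∀ R : ℝ, {a ∈ A | |a.1| ≤ R ∧ |a.2| ≤ R}.Finite := by
  obtain ⟨δ, hδ0, hδ⟩ := hs.exists_min
  obtain ⟨i, -⟩ := hs.xfull 0 le_rfl hs.wpos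
  let f : ℝ × ℝ → ℤ × ℤ := fun a => (⌊a.1 / δ⌋, ⌊a.2 / δ⌋)
  have hf : Set.InjOn f A := by
    intro a ha b hb he
    by_contra hne
    simp only [f, Prod.mk.injEq] at he
    have h1 := Int.abs_sub_lt_one_of_floor_eq_floor he.1
    rw [← sub_div, abs_div, abs_of_pos hδ0, div_lt_one hδ0, abs_lt] at h1
    have h2 := Int.abs_sub_lt_one_of_floor_eq_floor he.2
    rw [← sub_div, abs_div, abs_of_pos hδ0, div_lt_one hδ0, abs_lt] at h2
    have hp := box_pos (a := max a.1 b.1 + l i) (b := min a.1 b.1 + r i)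
      (a' := max a.2 b.2 + s i) (b' := min a.2 b.2 + t i)
      (by rcases le_total a.1 b.1 with hc | hc <;> simp [hc] <;> linarith [(hδ i).1])
      (by rcases le_total a.2 b.2 with hc | hc <;> simp [hc] <;> linarith [(hδ i).2])
    refine hp.ne' (measure_mono_null ?_ (hA.2 a ha b hb hne))
    rintro ⟨x, y⟩ ⟨⟨hx1, hx2⟩, hy1, hy2⟩
    simp only at hx1 hx2 hy1 hy2
    have := le_max_left a.1 b.1; have := min_le_left a.1 b.1
    have := le_max_left a.2 b.2; have := min_le_left a.2 b.2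
    have := le_max_right a.1 b.1; have := min_le_right a.1 b.1
    have := le_max_right a.2 b.2; have := min_le_right a.2 b.2
    constructor <;> rw [Set.mem_vadd_set_iff_neg_vadd_mem, vadd_eq_add, neg_add_eq_sub] <;>
      refine hsub (sub_mem_boxSet.2 ⟨i, ?_⟩) <;> refine ⟨⟨?_, ?_⟩, ?_, ?_⟩ <;> linarith
  refine ⟨(Set.mapsTo_univ f A).countable_of_injOn hf Set.countable_univ, fun R => ?_⟩
  refine Set.Finite.of_injOn (f := f)
    (t := Set.Icc ⌊-R / δ⌋ ⌊R / δ⌋ ×ˢ Set.Icc ⌊-R / δ⌋ ⌊R / δ⌋) ?_ (hf.mono fun a ha => ha.1)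
    ((Set.finite_Icc _ _).prod (Set.finite_Icc _ _))
  intro a ⟨_, h1, h2⟩
  rw [abs_le] at h1 h2
  exact ⟨⟨Int.floor_le_floor (by gcongr; exact h1.1), Int.floor_le_floor (by gcongr; exact h1.2)⟩,
    ⟨Int.floor_le_floor (by gcongr; exact h2.1), Int.floor_le_floor (by gcongr; exact h2.2)⟩⟩

/-- Tilings up to null sets by the boxes are exact. -/
theorem boxTiling_of_ae (hs : IsBoxShape l r s t W H) {Ω A : Set (ℝ × ℝ)}
    (hsub : boxSet l r s t ⊆ Ω) (hnull : volume (Ω \ boxSet l r s t) = 0)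
    (hA : TilesUpToNull Ω A) : BoxTiling l r s t A := by
  classical
  intro z
  obtain ⟨hcount, hfin⟩ := countable_of_ae hs hsub hA
  set R := |z.1| + |z.2| + W + H + 3 with hR
  let near := (hfin R).toFinset ×ˢ (Finset.univ : Finset ι)
  let pts : Finset ℝ := near.image (fun ai => ai.1.1 + l ai.2) ∪ near.image (fun ai => ai.1.1 + r ai.2)
  let pts' : Finset ℝ := near.image (fun ai => ai.1.2 + s ai.2) ∪
    near.image (fun ai => ai.1.2 + t ai.2)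
  obtain ⟨ε, hε, hε1, hεx, hεy⟩ : ∃ ε > 0, ε ≤ 1 ∧ (∀ p ∈ pts, z.1 < p → z.1 + ε ≤ p) ∧
      ∀ p ∈ pts', z.2 < p → z.2 + ε ≤ p := by
    set G := insert 1 ((pts.filter (z.1 < ·)).image (· - z.1) ∪
      (pts'.filter (z.2 < ·)).image (· - z.2)) with hG
    have hne : G.Nonempty := Finset.insert_nonempty _ _
    refine ⟨G.min' hne, ?_, Finset.min'_le _ _ (by simp [hG]), fun p hp hlt => ?_,
      fun p hp hlt => ?_⟩
    · have hmem := Finset.min'_mem G hne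
      simp only [hG, Finset.mem_insert, Finset.mem_union, Finset.mem_image, Finset.mem_filter]
        at hmem
      rcases hmem with e | ⟨p, ⟨_, hp⟩, e⟩ | ⟨p, ⟨_, hp⟩, e⟩ <;> rw [gt_iff_lt] <;> simp only [hG]
        <;> linarith
    · have := Finset.min'_le G (p - z.1) (Finset.mem_insert.2 (Or.inr
        (Finset.mem_union_left _ (Finset.mem_image.2 ⟨p, Finset.mem_filter.2 ⟨hp, hlt⟩, rfl⟩))))
      linarith
    · have := Finset.min'_le G (p - z.2) (Finset.mem_insert.2 (Or.inr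
        (Finset.mem_union_right _ (Finset.mem_image.2 ⟨p, Finset.mem_filter.2 ⟨hp, hlt⟩, rfl⟩))))
      linarith
  -- membership does not change on the small square
  have hsq : ∀ a ∈ A, ∀ i, ∀ w : ℝ × ℝ, z.1 ≤ w.1 → w.1 < z.1 + ε → z.2 ≤ w.2 → w.2 < z.2 + ε →
      (((a.1 + l i ≤ w.1 ∧ w.1 < a.1 + r i) ∧ a.2 + s i ≤ w.2 ∧ w.2 < a.2 + t i) ↔
       ((a.1 + l i ≤ z.1 ∧ z.1 < a.1 + r i) ∧ a.2 + s i ≤ z.2 ∧ z.2 < a.2 + t i)) := by
    intro a ha i w w1 w2 w3 w4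
    by_cases hn : |a.1| ≤ R ∧ |a.2| ≤ R
    · have hm : (a, i) ∈ near := by simp [near, ha, hn.1, hn.2]
      have p1 := hεx (a.1 + l i) (by simp only [pts, Finset.mem_union, Finset.mem_image]
                                     exact Or.inl ⟨(a, i), hm, rfl⟩)
      have p2 := hεx (a.1 + r i) (by simp only [pts, Finset.mem_union, Finset.mem_image]
                                     exact Or.inr ⟨(a, i), hm, rfl⟩)
      have p3 := hεy (a.2 + s i) (by simp only [pts', Finset.mem_union, Finset.mem_image]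
                                     exact Or.inl ⟨(a, i), hm, rfl⟩)
      have p4 := hεy (a.2 + t i) (by simp only [pts', Finset.mem_union, Finset.mem_image]
                                     exact Or.inr ⟨(a, i), hm, rfl⟩)
      constructor
      · rintro ⟨⟨h1, h2⟩, h3, h4⟩
        refine ⟨⟨?_, by linarith⟩, ?_, by linarith⟩
        · by_contra hh; linarith [p1 (not_le.1 hh)]
        · by_contra hh; linarith [p3 (not_le.1 hh)]
      · rintro ⟨⟨h1, h2⟩, h3, h4⟩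
        exact ⟨⟨by linarith, by linarith [p2 h2]⟩, by linarith, by linarith [p4 h4]⟩
    · have b1 := abs_le.1 (le_refl |z.1|)
      have b2 := abs_le.1 (le_refl |z.2|)
      have := abs_nonneg z.1
      have := abs_nonneg z.2
      have := hs.xrange i
      have := hs.yrange i
      have := hs.wpos
      have := hs.hpos
      constructor <;> rintro ⟨⟨h1, h2⟩, h3, h4⟩ <;> refine absurd ⟨?_, ?_⟩ hn <;> rw [abs_le] <;>
        constructor <;> linarith [hs.lt i, hs.st i]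
  have hopen : ∀ w : ℝ × ℝ, w ∈ Set.Ioo z.1 (z.1 + ε) ×ˢ Set.Ioo z.2 (z.2 + ε) →
      z.1 ≤ w.1 ∧ w.1 < z.1 + ε ∧ z.2 ≤ w.2 ∧ w.2 < z.2 + ε := fun w hw =>
    ⟨hw.1.1.le, hw.1.2, hw.2.1.le, hw.2.2⟩
  have hpos := box_pos (a := z.1) (b := z.1 + ε) (a' := z.2) (b' := z.2 + ε) (by linarith)
    (by linarith)
  -- existence
  have hex : ∃ ai : (ℝ × ℝ) × ι, ai.1 ∈ A ∧ (ai.1.1 + l ai.2 ≤ z.1 ∧ z.1 < ai.1.1 + r ai.2) ∧
      ai.1.2 + s ai.2 ≤ z.2 ∧ z.2 < ai.1.2 + t ai.2 := by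
    by_contra hnone
    refine hpos.ne' (measure_mono_null (t := {w | ¬ ∃ a ∈ A, w - a ∈ Ω} ∪
      ⋃ a ∈ A, (fun w => w - a) ⁻¹' (Ω \ boxSet l r s t)) ?_ ?_)
    · intro w hw
      obtain ⟨w1, w2, w3, w4⟩ := hopen w hw
      by_contra hout
      obtain ⟨a, ha, hwa⟩ : ∃ a ∈ A, w - a ∈ Ω := not_not.1 fun hh => hout (Or.inl hh)
      have hbox : w - a ∈ boxSet l r s t :=
        not_not.1 fun hh => hout (Or.inr (Set.mem_biUnion ha ⟨hwa, hh⟩))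
      obtain ⟨i, hi⟩ := sub_mem_boxSet.1 hbox
      exact hnone ⟨(a, i), ha, (hsq a ha i w w1 w2 w3 w4).1 hi⟩
    · refine measure_union_null (ae_iff.1 hA.1) ((measure_biUnion_null_iff hcount).2 fun a _ => ?_)
      simp only [sub_eq_add_neg]
      rw [measure_preimage_add_right]
      exact hnull
  refine hex.imp fun ai hai => ⟨hai, ?_⟩
  rintro ⟨b, i'⟩ ⟨hb, hbz⟩
  obtain ⟨a, i⟩ := ai
  obtain ⟨ha, haz⟩ := hai
  by_cases hab : b = a
  · subst hab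
    by_contra hne
    rcases hs.disjoint i' i (fun e => hne (by rw [e])) with hd | hd | hd | hd <;>
      linarith [haz.1.1, haz.1.2, hbz.1.1, hbz.1.2, haz.2.1, haz.2.2, hbz.2.1, hbz.2.2]
  · exfalso
    refine hpos.ne' (measure_mono_null (fun w hw => ?_) (hA.2 b hb a ha hab))
    obtain ⟨w1, w2, w3, w4⟩ := hopen w hw
    constructor <;> rw [Set.mem_vadd_set_iff_neg_vadd_mem, vadd_eq_add, neg_add_eq_sub]
    · exact hsub (sub_mem_boxSet.2 ⟨i', (hsq b hb i' w w1 w2 w3 w4).2 hbz⟩)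
    · exact hsub (sub_mem_boxSet.2 ⟨i, (hsq a ha i w w1 w2 w3 w4).2 haz⟩)

/-- An exact tiling by the boxes tiles up to null sets. -/
theorem ae_of_boxTiling (_hs : IsBoxShape l r s t W H) {Ω T : Set (ℝ × ℝ)}
    (hsub : boxSet l r s t ⊆ Ω) (hnull : volume (Ω \ boxSet l r s t) = 0)
    (hT : BoxTiling l r s t T) : TilesUpToNull Ω T := by
  refine ⟨Filter.Eventually.of_forall fun z => ?_, fun a ha b hb hne => ?_⟩
  · obtain ⟨⟨a, i⟩, h1, h2⟩ := (hT z).exists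
    exact ⟨a, h1, hsub (sub_mem_boxSet.2 ⟨i, h2⟩)⟩
  · refine measure_mono_null
      (t := (fun w => w - a) ⁻¹' (Ω \ boxSet l r s t) ∪ (fun w => w - b) ⁻¹' (Ω \ boxSet l r s t))
      ?_ ?_
    · intro w ⟨h1, h2⟩
      rw [Set.mem_vadd_set_iff_neg_vadd_mem, vadd_eq_add, neg_add_eq_sub] at h1 h2
      by_contra hout
      obtain ⟨i, hi⟩ := sub_mem_boxSet.1 (not_not.1 fun hh => hout (Or.inl ⟨h1, hh⟩))
      obtain ⟨i', hi'⟩ := sub_mem_boxSet.1 (not_not.1 fun hh => hout (Or.inr ⟨h2, hh⟩))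
      exact hne (congrArg Prod.fst ((hT w).unique (y₁ := (a, i)) (y₂ := (b, i')) ⟨ha, hi⟩ ⟨hb, hi'⟩))
    · refine measure_union_null ?_ ?_ <;>
      · simp only [sub_eq_add_neg]
        rw [measure_preimage_add_right]
        exact hnull

/-- The endpoint after a point, and the elementary interval of a point. -/
theorem exists_next (E : Finset ℝ) :
    ∃ nx : ℝ → ℝ, (∀ e, e < nx e) ∧ (∀ e, ∀ p ∈ E, e < p → nx e ≤ p) ∧
      ∀ x, ∀ a ∈ E, ∀ b ∈ E, a ≤ x → x < b → ∃ e ∈ E, a ≤ e ∧ e ≤ x ∧ x < nx e ∧ nx e ≤ b := by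
  classical
  let nx : ℝ → ℝ := fun e =>
    if hn : (E.filter (e < ·)).Nonempty then (E.filter (e < ·)).min' hn else e + 1
  have hnx : ∀ e, e < nx e := fun e => by
    simp only [nx]
    split_ifs with hn
    · exact (Finset.mem_filter.1 (Finset.min'_mem _ hn)).2
    · linarith
  have hnxle : ∀ e, ∀ p ∈ E, e < p → nx e ≤ p := fun e p hp hlt => by
    have hmem : p ∈ E.filter (e < ·) := Finset.mem_filter.2 ⟨hp, hlt⟩
    simp only [nx, dif_pos (show (E.filter (e < ·)).Nonempty from ⟨p, hmem⟩)]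
    exact Finset.min'_le _ _ hmem
  refine ⟨nx, hnx, hnxle, fun x a ha b hb hax hxb => ?_⟩
  have hn : (E.filter (· ≤ x)).Nonempty := ⟨a, Finset.mem_filter.2 ⟨ha, hax⟩⟩
  set e := (E.filter (· ≤ x)).max' hn
  obtain ⟨heE, hex⟩ := Finset.mem_filter.1 (Finset.max'_mem _ hn)
  have heb : e < b := lt_of_le_of_lt hex hxb
  refine ⟨e, heE, Finset.le_max' _ _ (Finset.mem_filter.2 ⟨ha, hax⟩), hex,
    lt_of_not_ge fun hle => ?_, hnxle e b hb heb⟩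
  have hn' : (E.filter (e < ·)).Nonempty := ⟨b, Finset.mem_filter.2 ⟨hb, heb⟩⟩
  have hmemE : nx e ∈ E := by
    simp only [nx, dif_pos hn']
    exact (Finset.mem_filter.1 (Finset.min'_mem _ hn')).1
  exact absurd (Finset.le_max' (E.filter (· ≤ x)) _ (Finset.mem_filter.2 ⟨hmemE, hle⟩))
    (not_le.2 (hnx e))

/-- With connected projection every point below the top is strictly below the top of some interval
starting before it. -/
theorem exists_cover_right {κ : Type*} (R : Finset κ) (lo hi : κ → ℝ) (h : ∀ ρ ∈ R, lo ρ < hi ρ)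
    {S : Set ℝ} (hS : S.OrdConnected) (hmem : ∀ u, u ∈ S ↔ ∃ ρ ∈ R, lo ρ ≤ u ∧ u ≤ hi ρ)
    {ρ₀ ρ₁ : κ} (h₀ : ρ₀ ∈ R) (h₁ : ρ₁ ∈ R) {x : ℝ} (hx0 : lo ρ₀ ≤ x) (hx1 : x < hi ρ₁) :
    ∃ ρ ∈ R, lo ρ ≤ x ∧ x < hi ρ := by
  classical
  have hgap : ∃ m, x < m ∧ m ≤ hi ρ₁ ∧ ∀ ρ ∈ R, x < lo ρ → m < lo ρ := by
    set G := insert (hi ρ₁) ((R.filter (x < lo ·)).image lo) with hG
    have hne : G.Nonempty := Finset.insert_nonempty _ _
    have hlt : x < G.min' hne := by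
      rw [Finset.lt_min'_iff]
      intro p hp
      simp only [hG, Finset.mem_insert, Finset.mem_image, Finset.mem_filter] at hp
      rcases hp with rfl | ⟨ρ, ⟨-, hρ⟩, rfl⟩
      exacts [hx1, hρ]
    have hle := Finset.min'_le G (hi ρ₁) (Finset.mem_insert_self _ _)
    refine ⟨(x + G.min' hne) / 2, by linarith, by linarith, fun ρ hρ hxρ => ?_⟩
    have := Finset.min'_le G (lo ρ)
      (Finset.mem_insert_of_mem (Finset.mem_image.2 ⟨ρ, Finset.mem_filter.2 ⟨hρ, hxρ⟩, rfl⟩))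
    linarith
  obtain ⟨m, hm0, hm1, hm⟩ := hgap
  have hlo : lo ρ₀ ∈ S := (hmem _).2 ⟨ρ₀, h₀, le_rfl, (h ρ₀ h₀).le⟩
  have hhi : hi ρ₁ ∈ S := (hmem _).2 ⟨ρ₁, h₁, (h ρ₁ h₁).le, le_rfl⟩
  have hmS : m ∈ S := hS.out hlo hhi ⟨by linarith, hm1⟩
  obtain ⟨ρ, hρ, g1, g2⟩ := (hmem m).1 hmS
  refine ⟨ρ, hρ, le_of_not_gt fun hh => ?_, by linarith⟩
  linarith [hm ρ hρ hh]

/-- A union of rectangles with connected projections gives a shape. -/
theorem exists_boxShape (R : Finset ((ℝ × ℝ) × (ℝ × ℝ)))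
    (hR : ∀ ρ ∈ R, ρ.1.1 < ρ.1.2 ∧ ρ.2.1 < ρ.2.2) (hne : R.Nonempty)
    (hx : (Prod.fst '' rectSet R).OrdConnected) (hy : (Prod.snd '' rectSet R).OrdConnected) :
    ∃ (ι : Type) (_ : Fintype ι) (l r s t : ι → ℝ) (W H : ℝ) (w : ℝ × ℝ),
      IsBoxShape l r s t W H ∧
      boxSet l r s t ⊆ (fun z => z + w) ⁻¹' rectSet R ∧
      volume (((fun z => z + w) ⁻¹' rectSet R) \ boxSet l r s t) = 0 := by
  classical
  obtain ⟨ρa, hρa, hmina⟩ := Finset.exists_min_image R (fun ρ => ρ.1.1) hne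
  obtain ⟨ρb, hρb, hmaxb⟩ := Finset.exists_max_image R (fun ρ => ρ.1.2) hne
  obtain ⟨ρc, hρc, hminc⟩ := Finset.exists_min_image R (fun ρ => ρ.2.1) hne
  obtain ⟨ρd, hρd, hmaxd⟩ := Finset.exists_max_image R (fun ρ => ρ.2.2) hne
  set E := R.image (fun ρ => ρ.1.1) ∪ R.image (fun ρ => ρ.1.2) with hE
  set F := R.image (fun ρ => ρ.2.1) ∪ R.image (fun ρ => ρ.2.2) with hF
  have hEa : ∀ ρ ∈ R, ρ.1.1 ∈ E ∧ ρ.1.2 ∈ E := fun ρ hρ =>
    ⟨Finset.mem_union_left _ (Finset.mem_image.2 ⟨ρ, hρ, rfl⟩),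
      Finset.mem_union_right _ (Finset.mem_image.2 ⟨ρ, hρ, rfl⟩)⟩
  have hFa : ∀ ρ ∈ R, ρ.2.1 ∈ F ∧ ρ.2.2 ∈ F := fun ρ hρ =>
    ⟨Finset.mem_union_left _ (Finset.mem_image.2 ⟨ρ, hρ, rfl⟩),
      Finset.mem_union_right _ (Finset.mem_image.2 ⟨ρ, hρ, rfl⟩)⟩
  obtain ⟨nx, hnx, hnxle, hfindx⟩ := exists_next E
  obtain ⟨ny, hny, hnyle, hfindy⟩ := exists_next F
  let cells : Finset (ℝ × ℝ) := (E ×ˢ F).filter fun c =>
    ∃ ρ ∈ R, ρ.1.1 ≤ c.1 ∧ c.1 < ρ.1.2 ∧ ρ.2.1 ≤ c.2 ∧ c.2 < ρ.2.2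
  have hcell : ∀ e ∈ E, ∀ f ∈ F, ∀ ρ ∈ R, ρ.1.1 ≤ e → e < ρ.1.2 → ρ.2.1 ≤ f → f < ρ.2.2 →
      (e, f) ∈ cells := fun e he f hf ρ hρ h1 h2 h3 h4 =>
    Finset.mem_filter.2 ⟨Finset.mem_product.2 ⟨he, hf⟩, ρ, hρ, h1, h2, h3, h4⟩
  have hmemx : ∀ u, u ∈ Prod.fst '' rectSet R ↔ ∃ ρ ∈ R, ρ.1.1 ≤ u ∧ u ≤ ρ.1.2 := fun u => by
    constructor
    · rintro ⟨z, hz, rfl⟩
      simp only [rectSet, Set.mem_iUnion, Set.mem_prod, Set.mem_Icc] at hz
      obtain ⟨ρ, hρ, h1, -⟩ := hz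
      exact ⟨ρ, hρ, h1⟩
    · rintro ⟨ρ, hρ, h1⟩
      exact ⟨(u, ρ.2.1), Set.mem_biUnion hρ ⟨h1, Set.left_mem_Icc.2 (hR ρ hρ).2.le⟩, rfl⟩
  have hmemy : ∀ u, u ∈ Prod.snd '' rectSet R ↔ ∃ ρ ∈ R, ρ.2.1 ≤ u ∧ u ≤ ρ.2.2 := fun u => by
    constructor
    · rintro ⟨z, hz, rfl⟩
      simp only [rectSet, Set.mem_iUnion, Set.mem_prod, Set.mem_Icc] at hz
      obtain ⟨ρ, hρ, -, h1⟩ := hz
      exact ⟨ρ, hρ, h1⟩
    · rintro ⟨ρ, hρ, h1⟩
      exact ⟨(ρ.1.1, u), Set.mem_biUnion hρ ⟨Set.left_mem_Icc.2 (hR ρ hρ).1.le, h1⟩, rfl⟩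
  set w : ℝ × ℝ := (ρa.1.1, ρc.2.1)
  refine ⟨cells, inferInstance, fun c => c.1.1 - w.1, fun c => nx c.1.1 - w.1,
    fun c => c.1.2 - w.2, fun c => ny c.1.2 - w.2, ρb.1.2 - w.1, ρd.2.2 - w.2, w,
    ⟨fun c => by linarith [hnx c.1.1], fun c => by linarith [hny c.1.2], ?_, fun c => ?_,
      fun c => ?_, ?_, ?_, fun x hx0 hxW => ?_, fun y hy0 hyH => ?_⟩, ?_, ?_⟩
  · -- no overlaps
    rintro ⟨⟨e, f⟩, hc⟩ ⟨⟨e', f'⟩, hc'⟩ hne'
    obtain ⟨he, hf⟩ := Finset.mem_product.1 (Finset.mem_filter.1 hc).1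
    obtain ⟨he', hf'⟩ := Finset.mem_product.1 (Finset.mem_filter.1 hc').1
    simp only at he hf he' hf' ⊢
    rcases lt_trichotomy e e' with h | h | h
    · exact Or.inl (by linarith [hnxle e e' he' h])
    · subst h
      rcases lt_trichotomy f f' with g | g | g
      · exact Or.inr (Or.inr (Or.inl (by linarith [hnyle f f' hf' g])))
      · exact absurd (by subst g; rfl) hne'
      · exact Or.inr (Or.inr (Or.inr (by linarith [hnyle f' f hf g])))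
    · exact Or.inr (Or.inl (by linarith [hnxle e' e he h]))
  · obtain ⟨-, ρ, hρ, r1, r2, -, -⟩ := Finset.mem_filter.1 c.2
    have := hnxle _ _ (hEa ρ hρ).2 r2
    exact ⟨by linarith [hmina ρ hρ], by linarith [hmaxb ρ hρ]⟩
  · obtain ⟨-, ρ, hρ, -, -, r3, r4⟩ := Finset.mem_filter.1 c.2
    have := hnyle _ _ (hFa ρ hρ).2 r4
    exact ⟨by linarith [hminc ρ hρ], by linarith [hmaxd ρ hρ]⟩
  · linarith [hmina ρb hρb, (hR ρb hρb).1]
  · linarith [hminc ρd hρd, (hR ρd hρd).2]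
  · obtain ⟨ρ, hρ, h1, h2⟩ := exists_cover_right R (fun ρ => ρ.1.1) (fun ρ => ρ.1.2)
      (fun ρ hρ => (hR ρ hρ).1) hx hmemx hρa hρb
      (x := x + w.1) (by simp only [w]; linarith) (by linarith)
    obtain ⟨e, heE, hae, hex, hxe, hnb⟩ := hfindx _ _ (hEa ρ hρ).1 _ (hEa ρ hρ).2 h1 h2
    exact ⟨⟨(e, ρ.2.1), hcell e heE _ (hFa ρ hρ).1 ρ hρ hae (lt_of_le_of_lt hex h2) le_rfl
      (hR ρ hρ).2⟩, by simp only; linarith, by simp only; linarith⟩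
  · obtain ⟨ρ, hρ, h1, h2⟩ := exists_cover_right R (fun ρ => ρ.2.1) (fun ρ => ρ.2.2)
      (fun ρ hρ => (hR ρ hρ).2) hy hmemy hρc hρd
      (x := y + w.2) (by simp only [w]; linarith) (by linarith)
    obtain ⟨f, hfF, hcf, hfy, hyf, hnd⟩ := hfindy _ _ (hFa ρ hρ).1 _ (hFa ρ hρ).2 h1 h2
    exact ⟨⟨(ρ.1.1, f), hcell _ (hEa ρ hρ).1 f hfF ρ hρ le_rfl (hR ρ hρ).1 hcf
      (lt_of_le_of_lt hfy h2)⟩, by simp only; linarith, by simp only; linarith⟩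
  · -- boxes are inside
    intro z hz
    obtain ⟨⟨⟨e, f⟩, hc⟩, ⟨h1, h2⟩, h3, h4⟩ := mem_boxSet.1 hz
    obtain ⟨-, ρ, hρ, r1, r2, r3, r4⟩ := Finset.mem_filter.1 hc
    simp only at h1 h2 h3 h4 r1 r2 r3 r4
    have hb := hnxle e _ (hEa ρ hρ).2 r2
    have hd := hnyle f _ (hFa ρ hρ).2 r4
    refine Set.mem_biUnion hρ ⟨⟨?_, ?_⟩, ?_, ?_⟩ <;>
      simp only [Prod.fst_add, Prod.snd_add] <;> linarith
  · -- the rest lies in finitely many lines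
    refine measure_mono_null
      (t := ⋃ ρ ∈ R, ({z : ℝ × ℝ | z.1 = ρ.1.2 - w.1} ∪ {z : ℝ × ℝ | z.2 = ρ.2.2 - w.2})) ?_ ?_
    · rintro z ⟨hz, hzb⟩
      by_contra hout
      simp only [Set.mem_preimage, rectSet, Set.mem_iUnion, Set.mem_prod, Set.mem_Icc,
        Prod.fst_add, Prod.snd_add] at hz
      obtain ⟨ρ, hρ, ⟨h1, h2⟩, h3, h4⟩ := hz
      simp only [Set.mem_iUnion, Set.mem_union, Set.mem_ofPred_eq, not_exists, not_or] at hout
      obtain ⟨o1, o2⟩ := hout ρ hρ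
      have h2' : z.1 + w.1 < ρ.1.2 := lt_of_le_of_ne h2 fun e => o1 (by linarith)
      have h4' : z.2 + w.2 < ρ.2.2 := lt_of_le_of_ne h4 fun e => o2 (by linarith)
      obtain ⟨e, heE, hae, hex, hxe, -⟩ := hfindx _ _ (hEa ρ hρ).1 _ (hEa ρ hρ).2 h1 h2'
      obtain ⟨f, hfF, hcf, hfy, hyf, -⟩ := hfindy _ _ (hFa ρ hρ).1 _ (hFa ρ hρ).2 h3 h4'
      exact hzb (mem_boxSet.2 ⟨⟨(e, f), hcell e heE f hfF ρ hρ hae (lt_of_le_of_lt hex h2') hcf
        (lt_of_le_of_lt hfy h4')⟩, ⟨by simp only; linarith, by simp only; linarith⟩,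
        by simp only; linarith, by simp only; linarith⟩)
    · exact (measure_biUnion_null_iff R.countable_toSet).2 fun ρ _ =>
        measure_union_null (null_vline _) (null_hline _)

end Vale.Agent.P043.Rect
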