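import Mathlib
import Vale.Agent.P043.Rows.Part
import Vale.Agent.P043.Rows.Shape

/-!
Helper for P043: tilings of the plane by finite unions of half-open boxes with real coordinates.
-/

namespace Vale.Agent.P043.Rect

open Vale.Agent.P043.Rows

set_option linter.unusedSectionVars false

variable {ι : Type} [Fintype ι]

/-- The boxes `[l i, r i) × [s i, t i)` are disjoint, lie in `[0, W) × [0, H)` and project onto
both intervals. -/
structure IsBoxShape (l r s t : ι → ℝ) (W H : ℝ) : Prop where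
  lt : ∀ i, l i < r i
  st : ∀ i, s i < t i
  disjoint : ∀ i i', i ≠ i' → r i ≤ l i' ∨ r i' ≤ l i ∨ t i ≤ s i' ∨ t i' ≤ s i
  xrange : ∀ i, 0 ≤ l i ∧ r i ≤ W
  yrange : ∀ i, 0 ≤ s i ∧ t i ≤ H
  wpos : 0 < W
  hpos : 0 < H
  xfull : ∀ x, 0 ≤ x → x < W → ∃ i, l i ≤ x ∧ x < r i
  yfull : ∀ y, 0 ≤ y → y < H → ∃ i, s i ≤ y ∧ y < t i

/-- `T` tiles the plane by translates of the boxes, exactly. -/
def BoxTiling (l r s t : ι → ℝ) (T : Set (ℝ × ℝ)) : Prop :=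
  ∀ z : ℝ × ℝ, ∃! p : (ℝ × ℝ) × ι, p.1 ∈ T ∧ (p.1.1 + l p.2 ≤ z.1 ∧ z.1 < p.1.1 + r p.2) ∧
    (p.1.2 + s p.2 ≤ z.2 ∧ z.2 < p.1.2 + t p.2)

/-- The pieces meeting the horizontal line at height `y`. -/
def lineSet (s t : ι → ℝ) (T : Set (ℝ × ℝ)) (y : ℝ) : Set ((ℝ × ℝ) × ι) :=
  {p | p.1 ∈ T ∧ p.1.2 + s p.2 ≤ y ∧ y < p.1.2 + t p.2}

/-- Horizontal coordinate of an edge of a piece. -/
def pieceX (l : ι → ℝ) (p : (ℝ × ℝ) × ι) : ℝ := p.1.1 + l p.2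

/-- The mirror image in the diagonal. -/
def swapSet (T : Set (ℝ × ℝ)) : Set (ℝ × ℝ) := Prod.swap ⁻¹' T

/-- No tile crosses the horizontal line at height `y`. -/
def Fault (s t : ι → ℝ) (T : Set (ℝ × ℝ)) (y : ℝ) : Prop :=
  ∀ p ∈ lineSet s t T y, p.1.2 = y

/-- Above height `Y`, every horizontal segment of length `2 L` is crossed by a tile. -/
def Linked (l s t : ι → ℝ) (T : Set (ℝ × ℝ)) (L Y : ℝ) : Prop :=
  ∀ x y, Y ≤ y → ∃ p ∈ lineSet s t T y, |pieceX l p - x| ≤ L ∧ p.1.2 < y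

/-- Right of `Y` in the vertical coordinate, every vertical segment of length `2 L` is crossed by
a tile. -/
def LinkedV (l r s : ι → ℝ) (T : Set (ℝ × ℝ)) (L Y : ℝ) : Prop :=
  ∀ x y, Y ≤ y → ∃ p ∈ lineSet l r (swapSet T) x, |pieceX s p - y| ≤ L ∧ p.1.2 < x

/-- Invariance under a translation. -/
def Period (v : ℝ × ℝ) (T : Set (ℝ × ℝ)) : Prop := ∀ a, a + v ∈ T ↔ a ∈ T

/-- Two independent translations preserve `T`. -/
def Periodic (T : Set (ℝ × ℝ)) : Prop :=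
  ∃ u v : ℝ × ℝ, LinearIndependent ℝ ![u, v] ∧ Period u T ∧ Period v T

/-- Nearby tiles differ by short sums of endpoint differences, read through `ψ`. -/
def Near (l r s t : ι → ℝ) (ψ : ℝ →+ ℝ) (T : Set (ℝ × ℝ)) (R : ℝ) (K : ℕ) (Y : ℝ) : Prop :=
  ∀ a ∈ T, ∀ b ∈ T, Y ≤ a.2 → Y ≤ b.2 → |b.1 - a.1| ≤ R → |b.2 - a.2| ≤ R →
    ∃ γ ∈ words l r K, ∃ γ' ∈ words s t K, ψ γ = b.1 - a.1 ∧ ψ γ' = b.2 - a.2

variable {l r s t : ι → ℝ} {W H : ℝ} {T : Set (ℝ × ℝ)}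

theorem IsBoxShape.swap (hs : IsBoxShape l r s t W H) : IsBoxShape s t l r H W where
  lt := hs.st
  st := hs.lt
  disjoint i i' hne := by
    rcases hs.disjoint i i' hne with h | h | h | h <;> tauto
  xrange := hs.yrange
  yrange := hs.xrange
  wpos := hs.hpos
  hpos := hs.wpos
  xfull := hs.yfull
  yfull := hs.xfull

theorem IsBoxShape.exists_min (hs : IsBoxShape l r s t W H) :
    ∃ δ > 0, ∀ i, l i + δ ≤ r i ∧ s i + δ ≤ t i := by
  obtain ⟨i₀, -⟩ := hs.xfull 0 le_rfl hs.wpos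
  obtain ⟨i, -, hi⟩ := Finset.exists_min_image Finset.univ
    (fun i => min (r i - l i) (t i - s i)) ⟨i₀, Finset.mem_univ _⟩
  refine ⟨min (r i - l i) (t i - s i), lt_min (sub_pos.2 (hs.lt i)) (sub_pos.2 (hs.st i)),
    fun i' => ?_⟩
  have := hi i' (Finset.mem_univ _)
  constructor <;> linarith [min_le_left (r i' - l i') (t i' - s i'),
    min_le_right (r i' - l i') (t i' - s i')]

theorem BoxTiling.row (hT : BoxTiling l r s t T) (y : ℝ) :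
    RowPart (lineSet s t T y) (pieceX l) (pieceX r) := by
  intro x
  obtain ⟨p, ⟨h1, h2, h3⟩, huniq⟩ := hT (x, y)
  exact ⟨p, ⟨⟨h1, h3⟩, h2⟩, fun q hq => huniq q ⟨hq.1.1, hq.2, hq.1.2⟩⟩

theorem BoxTiling.swap (hT : BoxTiling l r s t T) : BoxTiling s t l r (swapSet T) := by
  rintro ⟨x, y⟩
  obtain ⟨⟨⟨a, b⟩, i⟩, ⟨h1, h2, h3⟩, huniq⟩ := hT (y, x)
  refine ⟨((b, a), i), ⟨h1, h3, h2⟩, ?_⟩
  rintro ⟨⟨b', a'⟩, i'⟩ ⟨g1, g2, g3⟩
  have := huniq ((a', b'), i') ⟨g1, g3, g2⟩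
  simp only [Prod.mk.injEq] at this ⊢
  tauto

theorem BoxTiling.translate (hT : BoxTiling l r s t T) (v : ℝ × ℝ) :
    BoxTiling l r s t {a | a + v ∈ T} := by
  intro z
  obtain ⟨⟨a, i⟩, ⟨h1, h2, h3⟩, huniq⟩ := hT (z + v)
  simp only [Prod.fst_add, Prod.snd_add] at h2 h3
  refine ⟨(a - v, i), ⟨by simpa using h1, ?_, ?_⟩, ?_⟩
  · simp only [Prod.fst_sub]; constructor <;> linarith
  · simp only [Prod.snd_sub]; constructor <;> linarith
  rintro ⟨a', i'⟩ ⟨g1, g2, g3⟩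
  have := huniq (a' + v, i') ⟨g1, by simp only [Prod.fst_add]; constructor <;> linarith,
    by simp only [Prod.snd_add]; constructor <;> linarith⟩
  simp only [Prod.mk.injEq] at this ⊢
  exact ⟨by rw [← this.1]; abel, this.2⟩

/-- A tile crossing a line has a piece on it. -/
theorem exists_piece (hs : IsBoxShape l r s t W H) {a : ℝ × ℝ} (ha : a ∈ T) {y : ℝ}
    (h1 : a.2 ≤ y) (h2 : y < a.2 + H) : ∃ i, (a, i) ∈ lineSet s t T y := by
  obtain ⟨i, e1, e2⟩ := hs.yfull (y - a.2) (by linarith) (by linarith)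
  exact ⟨i, ha, by simp only; linarith, by simp only; linarith⟩

theorem base_le (hs : IsBoxShape l r s t W H) {p : (ℝ × ℝ) × ι} {y : ℝ}
    (hp : p ∈ lineSet s t T y) : p.1.2 ≤ y ∧ y < p.1.2 + H :=
  ⟨by linarith [hp.2.1, (hs.yrange p.2).1], by linarith [hp.2.2, (hs.yrange p.2).2]⟩

theorem Fault.no_cross (hs : IsBoxShape l r s t W H) {y : ℝ} (hf : Fault s t T y) {a : ℝ × ℝ}
    (ha : a ∈ T) : y ≤ a.2 ∨ a.2 + H ≤ y := by
  by_contra hc
  push Not at hc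
  obtain ⟨i, hi⟩ := exists_piece hs ha hc.1.le hc.2
  exact hc.1.ne (hf _ hi)

end Vale.Agent.P043.Rect
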