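import Vale.Agent.P043.Rect.Boxes

/-!
Helper for P043: limits of box tilings with converging endpoints.
-/

namespace Vale.Agent.P043.Rect

open Filter Topology MeasureTheory Pointwise Vale.Agent.P043.Rows

set_option linter.unusedSectionVars false

variable {ι : Type} [Fintype ι] {l r s t : ι → ℝ} {W H : ℝ}

/-- Limits along an ultrafilter of selections from a sequence of sets. -/
def limitSet (U : Ultrafilter ℕ) (T' : ℕ → Set (ℝ × ℝ)) : Set (ℝ × ℝ) :=
  {a | ∃ sel : ℕ → ℝ × ℝ, (∀ᶠ n in (U : Filter ℕ), sel n ∈ T' n) ∧ Tendsto sel U (𝓝 a)}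

theorem limitSet_swap (U : Ultrafilter ℕ) (T' : ℕ → Set (ℝ × ℝ)) :
    swapSet (limitSet U T') = limitSet U fun n => swapSet (T' n) := by
  ext a
  constructor
  · rintro ⟨sel, h1, h2⟩
    exact ⟨fun n => (sel n).swap, h1.mono fun n hn => by simpa [swapSet] using hn,
      by simpa [Function.comp_def] using (continuous_swap.tendsto a.swap).comp h2⟩
  · rintro ⟨sel, h1, h2⟩
    exact ⟨fun n => (sel n).swap, h1.mono fun n hn => by simpa [swapSet] using hn,
      (continuous_swap.tendsto a).comp h2⟩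

/-- A crossing of the limit comes from crossings of the approximants. -/
theorem fault_limit (hs : IsBoxShape l r s t W H) (U : Ultrafilter ℕ) (hU : (U : Filter ℕ) ≤ atTop)
    {l' r' s' t' : ℕ → ι → ℝ} {W' H' : ℕ → ℝ}
    (hs' : ∀ n, IsBoxShape (l' n) (r' n) (s' n) (t' n) (W' n) (H' n))
    (ht : ∀ i, Tendsto (fun n => t' n i) U (𝓝 (t i)))
    {T' : ℕ → Set (ℝ × ℝ)} {D : ℕ → ℝ} (hD : Tendsto D atTop atTop)
    (hfault : ∀ n, ∀ p ∈ lineSet (s' n) (t' n) (T' n) 0, |p.1.1| ≤ D n → p.1.2 = 0) :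
    Fault s t (limitSet U T') 0 := by
  rintro ⟨a, i⟩ hp
  obtain ⟨⟨sel, hmem, hlim⟩, hp1, hp2⟩ := hp
  have hneg : a.2 ≤ 0 := by linarith [(hs.yrange i).1]
  by_contra hne
  have hlt : a.2 < 0 := lt_of_le_of_ne hneg hne
  have h1 := ((continuous_fst.tendsto a).comp hlim)
  have h2 := ((continuous_snd.tendsto a).comp hlim)
  have e1 : ∀ᶠ n in (U : Filter ℕ), (sel n).2 < 0 := h2.eventually_lt_const hlt
  have e2 : ∀ᶠ n in (U : Filter ℕ), 0 < (sel n).2 + t' n i := (h2.add (ht i)).eventually_const_lt hp2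
  have e3 : ∀ᶠ n in (U : Filter ℕ), |(sel n).1| < |a.1| + 1 :=
    h1.abs.eventually_lt_const (show |a.1| < |a.1| + 1 by linarith)
  have e4 : ∀ᶠ n in (U : Filter ℕ), |a.1| + 1 ≤ D n :=
    (hD.mono_left hU).eventually_ge_atTop (|a.1| + 1)
  obtain ⟨n, hn, g1, g2, g3, g4⟩ := (hmem.and (e1.and (e2.and (e3.and e4)))).exists
  obtain ⟨i', hi'⟩ := exists_piece (hs' n) hn g1.le (show (0 : ℝ) < (sel n).2 + H' n by
    linarith [((hs' n).yrange i).2])
  exact g1.ne (hfault n _ hi' (g3.le.trans g4))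

/-- The limit tiling. -/
theorem box_limit (hs : IsBoxShape l r s t W H) (l' r' s' t' : ℕ → ι → ℝ) (W' H' : ℕ → ℝ)
    (hs' : ∀ n, IsBoxShape (l' n) (r' n) (s' n) (t' n) (W' n) (H' n))
    (hl : ∀ i, Tendsto (fun n => l' n i) atTop (nhds (l i)))
    (hr : ∀ i, Tendsto (fun n => r' n i) atTop (nhds (r i)))
    (hsl : ∀ i, Tendsto (fun n => s' n i) atTop (nhds (s i)))
    (ht : ∀ i, Tendsto (fun n => t' n i) atTop (nhds (t i)))
    (T' : ℕ → Set (ℝ × ℝ)) (hT' : ∀ n, BoxTiling (l' n) (r' n) (s' n) (t' n) (T' n)) :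
    ∃ T, BoxTiling l r s t T ∧
      (∀ D : ℕ → ℝ, Tendsto D atTop atTop →
        (∀ n, ∀ p ∈ lineSet (s' n) (t' n) (T' n) 0, |p.1.1| ≤ D n → p.1.2 = 0) → Fault s t T 0) ∧
      (∀ D : ℕ → ℝ, Tendsto D atTop atTop →
        (∀ n, ∀ p ∈ lineSet (l' n) (r' n) (swapSet (T' n)) 0, |p.1.1| ≤ D n → p.1.2 = 0) →
          Fault l r (swapSet T) 0) ∧
      (∀ (P : ℝ) (D : ℕ → ℝ), Tendsto D atTop atTop →
        (∀ n, ∀ a : ℝ × ℝ, |a.1| ≤ D n → |a.2| ≤ D n → (a + (P, 0) ∈ T' n ↔ a ∈ T' n)) →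
          Period (P, 0) T) := by
  classical
  set U : Ultrafilter ℕ := Ultrafilter.of atTop
  have hU : (U : Filter ℕ) ≤ atTop := Ultrafilter.of_le atTop
  have hlU := fun i => (hl i).mono_left hU
  have hrU := fun i => (hr i).mono_left hU
  have hsU := fun i => (hsl i).mono_left hU
  have htU := fun i => (ht i).mono_left hU
  obtain ⟨δ, hδ0, hδ⟩ := hs.exists_min
  set T := limitSet U T' with hTdef
  -- open boxes of the limit are disjoint
  have hopen : ∀ a ∈ T, ∀ b ∈ T, ∀ i k, ∀ z : ℝ × ℝ,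
      (a.1 + l i < z.1 ∧ z.1 < a.1 + r i) → (a.2 + s i < z.2 ∧ z.2 < a.2 + t i) →
      (b.1 + l k < z.1 ∧ z.1 < b.1 + r k) → (b.2 + s k < z.2 ∧ z.2 < b.2 + t k) →
      a = b ∧ i = k := by
    intro a ha b hb i k z hax hay hbx hby
    obtain ⟨sa, hsa, hla⟩ := ha
    obtain ⟨sb, hsb, hlb⟩ := hb
    have hin : ∀ (c : ℝ × ℝ) (sel : ℕ → ℝ × ℝ) (i : ι), (∀ᶠ n in (U : Filter ℕ), sel n ∈ T' n) →
        Tendsto sel U (𝓝 c) → (c.1 + l i < z.1 ∧ z.1 < c.1 + r i) →
        (c.2 + s i < z.2 ∧ z.2 < c.2 + t i) → ∀ᶠ n in (U : Filter ℕ), sel n ∈ T' n ∧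
          ((sel n).1 + l' n i ≤ z.1 ∧ z.1 < (sel n).1 + r' n i) ∧
          ((sel n).2 + s' n i ≤ z.2 ∧ z.2 < (sel n).2 + t' n i) := by
      intro c sel i hm hlim hx hy
      have h1 := (continuous_fst.tendsto c).comp hlim
      have h2 := (continuous_snd.tendsto c).comp hlim
      filter_upwards [hm, (h1.add (hlU i)).eventually_lt_const hx.1,
        (h1.add (hrU i)).eventually_const_lt hx.2, (h2.add (hsU i)).eventually_lt_const hy.1,
        (h2.add (htU i)).eventually_const_lt hy.2] with n hn g1 g2 g3 g4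
      exact ⟨hn, ⟨g1.le, g2⟩, g3.le, g4⟩
    have hsame : ∀ᶠ n in (U : Filter ℕ), (sa n, i) = (sb n, k) := by
      filter_upwards [hin a sa i hsa hla hax hay, hin b sb k hsb hlb hbx hby] with n ga gb
      exact (hT' n z).unique ga gb
    obtain ⟨n, hn⟩ := hsame.exists
    simp only [Prod.mk.injEq] at hn
    refine ⟨tendsto_nhds_unique hla (hlb.congr' (hsame.mono fun m hm => ?_)), hn.2⟩
    simp only [Prod.mk.injEq] at hm
    exact hm.1.symm
  -- closed boxes of the limit cover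
  have hclosed : ∀ z : ℝ × ℝ, ∃ a ∈ T, ∃ i, (a.1 + l i ≤ z.1 ∧ z.1 ≤ a.1 + r i) ∧
      (a.2 + s i ≤ z.2 ∧ z.2 ≤ a.2 + t i) := by
    intro z
    choose p hp using fun n => (hT' n z).exists
    obtain ⟨i, hi⟩ : ∃ i, ∀ᶠ n in (U : Filter ℕ), (p n).2 = i := by
      by_contra hno
      simp only [not_exists] at hno
      have hall : ∀ᶠ n in (U : Filter ℕ), ∀ i, ¬ (p n).2 = i :=
        eventually_all.2 fun i => Ultrafilter.eventually_not.2 (hno i)
      obtain ⟨n, hn⟩ := hall.exists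
      exact hn _ rfl
    set A : Set (ℝ × ℝ) := Set.Icc (z.1 - r i - 1) (z.1 - l i + 1) ×ˢ
      Set.Icc (z.2 - t i - 1) (z.2 - s i + 1)
    have hA : ∀ᶠ n in (U : Filter ℕ), (p n).1 ∈ A := by
      filter_upwards [hi, (hlU i).eventually_const_lt (show l i - 1 < l i by linarith),
        (hrU i).eventually_lt_const (show r i < r i + 1 by linarith),
        (hsU i).eventually_const_lt (show s i - 1 < s i by linarith),
        (htU i).eventually_lt_const (show t i < t i + 1 by linarith)] with n hn g1 g2 g3 g4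
      obtain ⟨-, ⟨q1, q2⟩, q3, q4⟩ := hp n
      rw [hn] at q1 q2 q3 q4
      exact ⟨⟨by linarith, by linarith⟩, ⟨by linarith, by linarith⟩⟩
    obtain ⟨a, -, ha⟩ := (isCompact_Icc.prod isCompact_Icc).ultrafilter_le_nhds
      (U.map fun n => (p n).1) (le_principal_iff.2 (Ultrafilter.mem_map.2 hA))
    have ha' : Tendsto (fun n => (p n).1) U (𝓝 a) := ha
    have h1 := (continuous_fst.tendsto a).comp ha'
    have h2 := (continuous_snd.tendsto a).comp ha'
    refine ⟨a, ⟨fun n => (p n).1, Eventually.of_forall fun n => (hp n).1, ha'⟩, i,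
      ⟨le_of_tendsto (h1.add (hlU i)) (hi.mono fun n hn => ?_),
        ge_of_tendsto (h1.add (hrU i)) (hi.mono fun n hn => ?_)⟩,
      le_of_tendsto (h2.add (hsU i)) (hi.mono fun n hn => ?_),
      ge_of_tendsto (h2.add (htU i)) (hi.mono fun n hn => ?_)⟩ <;>
      (obtain ⟨-, ⟨q1, q2⟩, q3, q4⟩ := hp n; rw [hn] at q1 q2 q3 q4; simp only [Function.comp_apply];
        linarith)
  -- countability
  obtain ⟨i₀, -⟩ := hs.xfull 0 le_rfl hs.wpos
  have hcount : T.Countable := by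
    refine (Set.mapsTo_univ (fun a : ℝ × ℝ => (⌊a.1 / δ⌋, ⌊a.2 / δ⌋)) T).countable_of_injOn ?_
      Set.countable_univ
    intro a ha b hb he
    simp only [Prod.mk.injEq] at he
    have h1 := Int.abs_sub_lt_one_of_floor_eq_floor he.1
    rw [← sub_div, abs_div, abs_of_pos hδ0, div_lt_one hδ0, abs_lt] at h1
    have h2 := Int.abs_sub_lt_one_of_floor_eq_floor he.2
    rw [← sub_div, abs_div, abs_of_pos hδ0, div_lt_one hδ0, abs_lt] at h2
    obtain ⟨x, hx1, hx2⟩ := exists_between (show max a.1 b.1 + l i₀ < min a.1 b.1 + r i₀ by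
      rcases le_total a.1 b.1 with hc | hc <;> simp [hc] <;> linarith [(hδ i₀).1])
    obtain ⟨y, hy1, hy2⟩ := exists_between (show max a.2 b.2 + s i₀ < min a.2 b.2 + t i₀ by
      rcases le_total a.2 b.2 with hc | hc <;> simp [hc] <;> linarith [(hδ i₀).2])
    exact (hopen a ha b hb i₀ i₀ (x, y)
      ⟨by linarith [le_max_left a.1 b.1], by linarith [min_le_left a.1 b.1]⟩
      ⟨by linarith [le_max_left a.2 b.2], by linarith [min_le_left a.2 b.2]⟩
      ⟨by linarith [le_max_right a.1 b.1], by linarith [min_le_right a.1 b.1]⟩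
      ⟨by linarith [le_max_right a.2 b.2], by linarith [min_le_right a.2 b.2]⟩).1
  have hae : TilesUpToNull (boxSet l r s t) T := by
    refine ⟨ae_iff.2 (measure_mono_null (t := ⋃ a ∈ T, ⋃ i : ι,
      ({z : ℝ × ℝ | z.1 = a.1 + r i} ∪ {z : ℝ × ℝ | z.2 = a.2 + t i})) ?_ ?_), fun a ha b hb hne => ?_⟩
    · intro z hz
      obtain ⟨a, ha, i, ⟨g1, g2⟩, g3, g4⟩ := hclosed z
      refine Set.mem_biUnion ha (Set.mem_iUnion.2 ⟨i, ?_⟩)
      by_contra hout
      simp only [Set.mem_union, Set.mem_ofPred_eq, not_or] at hout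
      exact hz ⟨a, ha, sub_mem_boxSet.2 ⟨i, ⟨g1, lt_of_le_of_ne g2 hout.1⟩, g3,
        lt_of_le_of_ne g4 hout.2⟩⟩
    · exact (measure_biUnion_null_iff hcount).2 fun a _ => measure_iUnion_null fun i =>
        measure_union_null (null_vline _) (null_hline _)
    · have hempty : (a +ᵥ boxSet l r s t) ∩ (b +ᵥ boxSet l r s t) = ∅ := by
        refine Set.eq_empty_of_forall_notMem fun z ⟨h1, h2⟩ => hne ?_
        rw [Set.mem_vadd_set_iff_neg_vadd_mem, vadd_eq_add, neg_add_eq_sub] at h1 h2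
        obtain ⟨i, ⟨a1, a2⟩, a3, a4⟩ := sub_mem_boxSet.1 h1
        obtain ⟨k, ⟨b1, b2⟩, b3, b4⟩ := sub_mem_boxSet.1 h2
        obtain ⟨x, hx1, hx2⟩ := exists_between (lt_min a2 b2)
        obtain ⟨y, hy1, hy2⟩ := exists_between (lt_min a4 b4)
        obtain ⟨hxa, hxb⟩ := lt_min_iff.1 hx2
        obtain ⟨hya, hyb⟩ := lt_min_iff.1 hy2
        exact (hopen a ha b hb i k (x, y) ⟨by linarith, hxa⟩ ⟨by linarith, hya⟩
          ⟨by linarith, hxb⟩ ⟨by linarith, hyb⟩).1
      rw [hempty, measure_empty]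
  refine ⟨T, boxTiling_of_ae hs subset_rfl (by simp) hae,
    fun D hD hf => fault_limit hs U hU hs' htU hD hf, fun D hD hf => ?_,
    fun P D hD hP a => ?_⟩
  · rw [hTdef, limitSet_swap]
    exact fault_limit hs.swap U hU (fun n => (hs' n).swap) hrU hD hf
  · have hwin : ∀ (sel : ℕ → ℝ × ℝ) (c : ℝ × ℝ), Tendsto sel U (𝓝 c) →
        ∀ᶠ n in (U : Filter ℕ), |(sel n).1| ≤ D n ∧ |(sel n).2| ≤ D n := by
      intro sel c hc
      have e1 := ((continuous_fst.tendsto c).comp hc).abs.eventually_lt_const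
        (show |c.1| < |c.1| + |c.2| + 1 by linarith [abs_nonneg c.2])
      have e2 := ((continuous_snd.tendsto c).comp hc).abs.eventually_lt_const
        (show |c.2| < |c.1| + |c.2| + 1 by linarith [abs_nonneg c.1])
      filter_upwards [e1, e2, (hD.mono_left hU).eventually_ge_atTop (|c.1| + |c.2| + 1)]
        with n g1 g2 g3
      exact ⟨g1.le.trans g3, g2.le.trans g3⟩
    constructor
    · rintro ⟨sel, h1, h2⟩
      have h3 : Tendsto (fun n => sel n - (P, 0)) U (𝓝 a) := by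
        simpa using h2.sub_const (P, (0 : ℝ))
      refine ⟨fun n => sel n - (P, 0), ?_, h3⟩
      filter_upwards [h1, hwin _ _ h3] with n hn hw
      refine (hP n _ hw.1 hw.2).1 ?_
      simpa using hn
    · rintro ⟨sel, h1, h2⟩
      refine ⟨fun n => sel n + (P, 0), ?_, h2.add_const (P, (0 : ℝ))⟩
      filter_upwards [h1, hwin _ _ h2] with n hn hw
      exact (hP n _ hw.1 hw.2).2 hn

end Vale.Agent.P043.Rect
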