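import Mathlib
import Vale.Agent.P043.Rect.Defs
import Vale.Agent.P043.Rows.RowPeriod

/-!
Helper for P043: one horizontal line of a box tiling, given the tiles that enter it from below, is
periodic.
-/

namespace Vale.Agent.P043.Rect

open Pointwise Vale.Agent.P043.Rows

set_option linter.unusedSectionVars false

variable {ι : Type} [Fintype ι] {l r s t : ι → ℝ} {W H : ℝ} {T : Set (ℝ × ℝ)}

theorem exists_bottom (hs : IsBoxShape l r s t W H) : ∃ i, s i = 0 := by
  obtain ⟨i, h1, -⟩ := hs.yfull 0 le_rfl hs.hpos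
  exact ⟨i, le_antisymm h1 (hs.yrange i).1⟩

theorem mem_line (hs : IsBoxShape l r s t W H) {i : ι} (hi : s i = 0) {u y : ℝ}
    (hu : (u, y) ∈ T) : ((u, y), i) ∈ lineSet s t T y :=
  ⟨hu, by simp [hi], by simp only; linarith [hs.st i]⟩

theorem s_eq_zero (hs : IsBoxShape l r s t W H) {p : (ℝ × ℝ) × ι} {y : ℝ}
    (hp : p ∈ lineSet s t T y) (he : p.1.2 = y) : s p.2 = 0 := by
  linarith [hp.2.1, (hs.yrange p.2).1]

theorem base_eq_of_near (hs : IsBoxShape l r s t W H) (hT : BoxTiling l r s t T) {δ : ℝ}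
    (hδ : ∀ i, l i + δ ≤ r i) {y u u' : ℝ} (hu : (u, y) ∈ T) (hu' : (u', y) ∈ T)
    (hn : |u - u'| < δ) : u = u' := by
  obtain ⟨i, hi⟩ := exists_bottom hs
  obtain ⟨h1, h2⟩ := abs_lt.1 hn
  have := (hT.row y).eq_of_mem (s := ((u, y), i)) (t := ((u', y), i)) (x := max u u' + l i)
    (mem_line hs hi hu) (mem_line hs hi hu') (by simp [pieceX])
    (by simp only [pieceX]; rcases le_total u u' with hc | hc <;> simp [hc] <;> linarith [hδ i])
    (by simp [pieceX])
    (by simp only [pieceX]; rcases le_total u u' with hc | hc <;> simp [hc] <;> linarith [hδ i])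
  exact congrArg (fun p : (ℝ × ℝ) × ι => p.1.1) this

theorem finite_line (hT : BoxTiling l r s t T) (hs : IsBoxShape l r s t W H) (y A B : ℝ) :
    {u | (u, y) ∈ T ∧ A ≤ u ∧ u ≤ B}.Finite := by
  obtain ⟨δ, hδ0, hδ⟩ := hs.exists_min
  refine Set.Finite.of_injOn (f := fun u : ℝ => ⌊u / δ⌋) (t := Set.Icc ⌊A / δ⌋ ⌊B / δ⌋)
    (fun u hu => ⟨Int.floor_le_floor (by gcongr; exact hu.2.1),
      Int.floor_le_floor (by gcongr; exact hu.2.2)⟩) ?_ (Set.finite_Icc _ _)
  intro u hu u' hu' he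
  refine base_eq_of_near hs hT (fun i => (hδ i).1) hu.1 hu'.1 ?_
  have := Int.abs_sub_lt_one_of_floor_eq_floor he
  rw [← sub_div, abs_div, abs_of_pos hδ0, div_lt_one hδ0] at this
  exact this

theorem line_words (hT : BoxTiling l r s t T) {δ : ℝ} (hδ0 : 0 < δ) (hδ : ∀ i, l i + δ ≤ r i)
    {y : ℝ} {p q : (ℝ × ℝ) × ι} (hp : p ∈ lineSet s t T y) (hq : q ∈ lineSet s t T y)
    {R : ℝ} (hR : |pieceX l q - pieceX l p| ≤ R) {N : ℕ} (hN : R ≤ N * δ) :
    q.1.1 - p.1.1 ∈ words l r N := by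
  wlog hpq : pieceX l p ≤ pieceX l q generalizing p q
  · have := neg_mem_words (this hq hp (by rwa [abs_sub_comm]) (le_of_not_ge hpq))
    simpa using this
  obtain ⟨n, hn, hw⟩ := (hT.row y).chain hδ0
    (fun u _ => by simp only [pieceX]; linarith [hδ u.2])
    hp hq hpq (fun n u => u.1.1 - p.1.1 ∈ words l r n) (by simp [words])
    (fun n u v _ _ huv hu => by
      have e : v.1.1 - p.1.1 = (u.1.1 - p.1.1) + (r u.2 - l v.2) := by
        simp only [pieceX] at huv; linarith
      simp only [e, words]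
      exact Finset.add_mem_add hu (sub_mem_gens l r _ _))
  refine words_mono l r ?_ hw
  have h1 : (n : ℝ) * δ ≤ (N : ℝ) * δ := hn.trans (((le_abs_self _).trans hR).trans hN)
  exact_mod_cast le_of_mul_le_mul_right h1 hδ0

/-- A row is eventually periodic in both directions, by recurrence of windows. -/
theorem exists_period (hs : IsBoxShape l r s t W H) (hT : BoxTiling l r s t T) (k : ℝ)
    (Per : AddSubgroup ℝ)
    (hold : ∀ v ∈ Per, ∀ b, b < k → k < b + H → ∀ u, ((u + v, b) ∈ T ↔ (u, b) ∈ T))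
    (Ξ : Finset ℝ) (hΞ : ∀ t, (t, k) ∈ T → ∃ ξ ∈ Ξ, t - ξ ∈ Per)
    (L : ℝ) (hL : ∀ a, ∃ t, (t, k) ∈ T ∧ a ≤ t ∧ t ≤ a + L) :
    ∃ Q ∈ Per, 0 < Q ∧ ∀ t, ((t + Q, k) ∈ T ↔ (t, k) ∈ T) := by
  classical
  obtain ⟨δ, hδ0, hδ'⟩ := hs.exists_min
  have hδ : ∀ i, l i + δ ≤ r i := fun i => (hδ' i).1
  have hW : (0 : ℝ) < W := hs.wpos
  obtain ⟨ia, hia⟩ := exists_bottom hs
  obtain ⟨i₀, hi₀, hmin⟩ := Finset.exists_min_image (Finset.univ.filter fun i => s i = 0) l
    ⟨ia, by simp [hia]⟩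
  simp only [Finset.mem_filter, Finset.mem_univ, true_and] at hi₀ hmin
  have hL0 : 0 ≤ L := by obtain ⟨t, -, h1, h2⟩ := hL 0; linarith
  set D := 2 * W with hDdef
  obtain ⟨N, hN⟩ : ∃ N : ℕ, D ≤ N * δ := ⟨⌈D / δ⌉₊, by rw [← div_le_iff₀ hδ0]; exact Nat.le_ceil _⟩
  choose ξ hξ hξ' using hΞ
  let code : ℝ → Option ℝ × Finset ℝ := fun t =>
    (if ht : (t, k) ∈ T then some (ξ t ht) else none,
      (words l r N).filter fun d => -D ≤ d ∧ d ≤ 0 ∧ (t + d, k) ∈ T)
  let Codes : Finset (Option ℝ × Finset ℝ) := Finset.insertNone Ξ ×ˢ (words l r N).powerset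
  have hcode : ∀ t, code t ∈ Codes := fun t => by
    simp only [Codes, code, Finset.mem_product, Finset.mem_powerset, Finset.filter_subset,
      and_true]
    split_ifs with ht <;> simp [Finset.mem_insertNone, hξ]
  set M := Codes.card with hMdef
  obtain ⟨N', hN'⟩ : ∃ N' : ℕ, ((M : ℝ) + 1) * (L + 1) + L ≤ N' * δ :=
    ⟨⌈(((M : ℝ) + 1) * (L + 1) + L) / δ⌉₊, by rw [← div_le_iff₀ hδ0]; exact Nat.le_ceil _⟩
  have key : ∀ m : ℕ, ∃ v ∈ words l r N', 0 < v ∧ v ∈ Per ∧
      ∀ w, -(m : ℝ) ≤ w → ((w + v, k) ∈ T ↔ (w, k) ∈ T) := by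
    intro m
    choose tt htT htlo hthi using hL
    set a₀ := -(m : ℝ) - ((M : ℝ) + 1) * (L + 1) - L with ha₀
    let pick : ℕ → ℝ := fun n => tt (a₀ + (n : ℝ) * (L + 1))
    obtain ⟨n₁, hn₁, n₂, hn₂, hne, heq⟩ := Finset.exists_ne_map_eq_of_card_lt_of_maps_to
      (s := Finset.range (M + 1)) (t := Codes) (by simp [hMdef])
      (fun n _ => hcode (pick n))
    wlog hlt : n₁ < n₂ generalizing n₁ n₂
    · exact this n₂ hn₂ n₁ hn₁ hne.symm heq.symm (by omega)
    simp only [Finset.mem_range] at hn₁ hn₂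
    have hb : ∀ n ≤ M, a₀ ≤ pick n ∧ pick n ≤ a₀ + (M : ℝ) * (L + 1) + L := fun n hn => by
      have h1 : (n : ℝ) * (L + 1) ≤ (M : ℝ) * (L + 1) := by gcongr
      have h2 : 0 ≤ (n : ℝ) * (L + 1) := by positivity
      exact ⟨by linarith [htlo (a₀ + (n : ℝ) * (L + 1))],
        by linarith [hthi (a₀ + (n : ℝ) * (L + 1))]⟩
    set t₁ := pick n₁
    set t₂ := pick n₂
    set v := t₂ - t₁ with hv
    have hT₁ : (t₁, k) ∈ T := htT _
    have hT₂ : (t₂, k) ∈ T := htT _
    obtain ⟨hc1, hc2⟩ := Prod.ext_iff.1 heq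
    simp only [code, dif_pos hT₁, dif_pos hT₂, Option.some.injEq] at hc1
    have hvP : v ∈ Per := by
      have := Per.sub_mem (hξ' t₂ hT₂) (hξ' t₁ hT₁)
      rw [← hc1] at this
      simpa [hv] using this
    have hvpos : 0 < v := by
      have h1 : ((n₁ : ℝ) + 1) * (L + 1) ≤ (n₂ : ℝ) * (L + 1) := by
        gcongr; exact_mod_cast hlt
      linarith [hthi (a₀ + (n₁ : ℝ) * (L + 1)), htlo (a₀ + (n₂ : ℝ) * (L + 1))]
    have hmem : ∀ u, (u, k) ∈ T → ((u, k), i₀) ∈ lineSet s t T k := fun u hu => mem_line hs hi₀ hu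
    have hclose : ∀ {t t' : ℝ}, (t, k) ∈ T → (t', k) ∈ T → |t' - t| ≤ D →
        t' - t ∈ words l r N := fun {t t'} ht ht' hd =>
      line_words hT hδ0 hδ (hmem t ht) (hmem t' ht') (R := D) (by simpa [pieceX] using hd) hN
    refine ⟨v, ?_, hvpos, hvP, ?_⟩
    · refine line_words hT hδ0 hδ (hmem t₁ hT₁) (hmem t₂ hT₂)
        (R := ((M : ℝ) + 1) * (L + 1) + L) ?_ hN'
      simp only [pieceX, add_sub_add_right_eq_sub]
      have := (hb n₁ (by omega)).1
      have := (hb n₂ (by omega)).2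
      rw [abs_of_pos hvpos]
      linarith
    have base : ∀ w, t₁ - D ≤ w → w ≤ t₁ → ((w + v, k) ∈ T ↔ (w, k) ∈ T) := by
      intro w h1 h2
      have hd : |(w + v) - t₂| ≤ D := by
        rw [abs_le]; constructor <;> linarith [hW.le]
      constructor
      · intro hw
        have hd1 : w - t₁ ∈ words l r N := by
          have := hclose hT₂ hw hd
          rw [show w - t₁ = w + v - t₂ by simp [hv]; ring]
          exact this
        have : w - t₁ ∈ (code t₁).2 := by
          change (code t₁).2 = (code t₂).2 at hc2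
          rw [hc2]
          simp only [code, Finset.mem_filter]
          refine ⟨hd1, by linarith, by linarith, ?_⟩
          convert hw using 2
          simp [hv]; ring
        simp only [code, Finset.mem_filter] at this
        simpa using this.2.2.2
      · intro hw
        have hd1 : w - t₁ ∈ words l r N := by
          refine hclose hT₁ hw ?_
          rw [abs_le]; constructor <;> linarith [hW.le]
        have : w - t₁ ∈ (code t₂).2 := by
          change (code t₁).2 = (code t₂).2 at hc2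
          rw [← hc2]
          simp only [code, Finset.mem_filter]
          exact ⟨hd1, by linarith, by linarith, by simpa using hw⟩
        simp only [code, Finset.mem_filter] at this
        convert this.2.2.2 using 2
        simp [hv]; ring
    intro w hw
    have hw' : t₁ - D ≤ w := by linarith [(hb n₁ (by omega)).2, hW.le]
    by_contra hbad
    set Bad := {u | (t₁ - D ≤ u ∧ u ≤ w) ∧ ¬((u + v, k) ∈ T ↔ (u, k) ∈ T)}
    have hfin : Bad.Finite := by
      refine ((finite_line hT hs k (t₁ - D) w).union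
        ((finite_line hT hs k (t₁ - D + v) (w + v)).image fun u => u - v)).subset ?_
      rintro u ⟨⟨hu1, hu2⟩, hu⟩
      by_cases hu3 : (u, k) ∈ T
      · exact Or.inl ⟨hu3, hu1, hu2⟩
      · exact Or.inr ⟨u + v, ⟨by tauto, by linarith, by linarith⟩, by simp⟩
    obtain ⟨u, ⟨⟨hu1, hu2⟩, hu⟩, hleast⟩ := Set.exists_min_image Bad id hfin
      ⟨w, ⟨hw', le_rfl⟩, hbad⟩
    have hut : t₁ < u := lt_of_not_ge fun hle => hu (base u hu1 hle)
    have hagree : ∀ z, t₁ - D ≤ z → z < u → ((z + v, k) ∈ T ↔ (z, k) ∈ T) := fun z h1 h2 => by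
      by_contra hz
      exact absurd (hleast z ⟨⟨h1, by linarith⟩, hz⟩) (not_le.2 h2)
    have main : ∀ σ ∈ Per, (∀ z, t₁ - D ≤ z → z < u →
        ((z + σ, k) ∈ T ↔ (z, k) ∈ T)) → (u, k) ∈ T → (u + σ, k) ∈ T := by
      intro σ hσ hag huT
      obtain ⟨⟨⟨y, b⟩, i⟩, hyj, hy1, hy2⟩ := (hT.row k (u + σ + l i₀)).exists
      have hyT := hyj.1
      simp only [pieceX] at hy1 hy2
      rcases (base_le hs hyj).1.eq_or_lt with hji | hji
      · simp only at hji hyT
        subst hji
        have hlmin := hmin i (s_eq_zero hs hyj rfl)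
        have hle : y - σ ≤ u := by linarith
        rcases hle.eq_or_lt with he | hl
        · obtain rfl : y = u + σ := by linarith
          exact hyT
        · exfalso
          have h1 : t₁ - D ≤ y - σ := by
            linarith [(hs.xrange i).2, (hs.xrange i₀).1]
          have hz : (y - σ, b) ∈ T := (hag _ h1 hl).1 (by simpa using hyT)
          have := (hT.row b).eq_of_mem (s := ((u, b), i₀)) (t := ((y - σ, b), i)) (x := u + l i₀)
            (hmem u huT) ⟨hz, hyj.2⟩ le_rfl (by simp only [pieceX]; linarith [hs.lt i₀])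
            (by simp only [pieceX]; linarith) (by simp only [pieceX]; linarith)
          exact hl.ne' (congrArg (fun p : (ℝ × ℝ) × ι => p.1.1) this)
      · exfalso
        have hz : (y - σ, b) ∈ T := (hold σ hσ b hji (base_le hs hyj).2 (y - σ)).1 (by simpa using hyT)
        have := (hT.row k).eq_of_mem (s := ((u, k), i₀)) (t := ((y - σ, b), i)) (x := u + l i₀)
          (hmem u huT) ⟨hz, hyj.2⟩ le_rfl (by simp only [pieceX]; linarith [hs.lt i₀])
          (by simp only [pieceX]; linarith) (by simp only [pieceX]; linarith)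
        have := congrArg (fun p : (ℝ × ℝ) × ι => p.1.2) this
        simp only at this
        exact hji.ne' this
    apply hu
    constructor
    · intro huv
      by_contra hnu
      obtain ⟨⟨⟨y, b⟩, i⟩, hyj, hy1, hy2⟩ := (hT.row k (u + l i₀)).exists
      have hyT := hyj.1
      simp only [pieceX] at hy1 hy2
      rcases (base_le hs hyj).1.eq_or_lt with hji | hji
      · simp only at hji hyT
        subst hji
        have hlmin := hmin i (s_eq_zero hs hyj rfl)
        have hyne : y ≠ u := fun e => hnu (e ▸ hyT)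
        have hl : y < u := lt_of_le_of_ne (by linarith) hyne
        have h1 : t₁ - D ≤ y := by
          linarith [(hs.xrange i).2, (hs.xrange i₀).1]
        have := (hT.row b).eq_of_mem (s := ((u + v, b), i₀)) (t := ((y + v, b), i))
          (x := u + v + l i₀) (hmem _ huv) ⟨(hagree y h1 hl).2 hyT, hyj.2⟩ le_rfl
          (by simp only [pieceX]; linarith [hs.lt i₀])
          (by simp only [pieceX]; linarith) (by simp only [pieceX]; linarith)
        exact hl.ne' (add_right_cancel (congrArg (fun p : (ℝ × ℝ) × ι => p.1.1) this))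
      · have hz : (y + v, b) ∈ T := (hold v hvP b hji (base_le hs hyj).2 y).2 hyT
        have := (hT.row k).eq_of_mem (s := ((u + v, k), i₀)) (t := ((y + v, b), i))
          (x := u + v + l i₀) (hmem _ huv) ⟨hz, hyj.2⟩ le_rfl
          (by simp only [pieceX]; linarith [hs.lt i₀])
          (by simp only [pieceX]; linarith) (by simp only [pieceX]; linarith)
        have := congrArg (fun p : (ℝ × ℝ) × ι => p.1.2) this
        simp only at this
        exact hji.ne' this
    · exact main v hvP hagree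
  choose vv hvW hv0 hvP hvT using key
  obtain ⟨⟨v, hv⟩, hinf⟩ := Finite.exists_infinite_fiber
    (fun m => (⟨vv m, hvW m⟩ : {x // x ∈ words l r N'}))
  have hinf' := Set.infinite_coe_iff.1 hinf
  obtain ⟨m₀, hm₀⟩ := hinf'.nonempty
  simp only [Set.mem_preimage, Set.mem_singleton_iff, Subtype.mk.injEq] at hm₀
  refine ⟨v, hm₀ ▸ hvP m₀, hm₀ ▸ hv0 m₀, fun t => ?_⟩
  obtain ⟨m, hm, hmt⟩ := hinf'.exists_gt ⌈-t⌉₊
  simp only [Set.mem_preimage, Set.mem_singleton_iff, Subtype.mk.injEq] at hm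
  rw [← hm]
  refine hvT m t ?_
  have h1 : ((⌈-t⌉₊ : ℕ) : ℝ) ≤ (m : ℝ) := by exact_mod_cast hmt.le
  linarith [Nat.le_ceil (-t)]

theorem count_line (hs : IsBoxShape l r s t W H) {y : ℝ} (c : ι → ℝ)
    (hinj : Set.InjOn (fun p : (ℝ × ℝ) × ι => p.1.1 + c p.2) (lineSet s t T y)) (x : ℝ)
    [Decidable (∃ p ∈ lineSet s t T y, p.1.1 + c p.2 = x)]
    [Decidable (∃ p ∈ lineSet s t T y, p.1.1 + c p.2 = x ∧ p.1.2 < y)]
    [∀ u, Decidable ((u, y) ∈ T)] :
    (if ∃ p ∈ lineSet s t T y, p.1.1 + c p.2 = x then (1 : ℤ) else 0) =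
      (∑ i : {i // s i = 0}, if (x - c i, y) ∈ T then (1 : ℤ) else 0) +
        if ∃ p ∈ lineSet s t T y, p.1.1 + c p.2 = x ∧ p.1.2 < y then 1 else 0 := by
  have hnew : ∀ i : {i // s i = 0}, (x - c i, y) ∈ T →
      ((x - c i, y), i.1) ∈ lineSet s t T y := fun i hi => mem_line hs i.2 hi
  by_cases hx : ∃ p ∈ lineSet s t T y, p.1.1 + c p.2 = x
  · obtain ⟨p, hpr, hpx⟩ := hx
    rw [if_pos ⟨p, hpr, hpx⟩]
    have huniq : ∀ p' ∈ lineSet s t T y, p'.1.1 + c p'.2 = x → p' = p := fun p' h1 h2 =>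
      hinj h1 hpr (by simp only; rw [h2, hpx])
    rcases (base_le hs hpr).1.eq_or_lt with hb | hb
    · rw [if_neg, add_zero, Finset.sum_eq_single ⟨p.2, s_eq_zero hs hpr hb⟩]
      · rw [if_pos]
        have e : (x - c p.2, y) = p.1 := Prod.ext (by simp only; linarith) hb.symm
        rw [e]; exact hpr.1
      · intro i' _ hne'
        rw [if_neg]
        intro h1
        exact hne' (Subtype.ext (congrArg Prod.snd (huniq _ (hnew i' h1) (by simp))))
      · simp
      · rintro ⟨p', h1, h2, h3⟩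
        rw [huniq p' h1 h2] at h3
        exact h3.ne hb
    · rw [if_pos ⟨p, hpr, hpx, hb⟩, Finset.sum_eq_zero, zero_add]
      intro i' _
      rw [if_neg]
      intro h1
      exact hb.ne (congrArg (fun q : (ℝ × ℝ) × ι => q.1.2) (huniq _ (hnew i' h1) (by simp))).symm
  · rw [if_neg hx, if_neg (fun ⟨p, h1, h2, _⟩ => hx ⟨p, h1, h2⟩), Finset.sum_eq_zero, add_zero]
    intro i' _
    rw [if_neg]
    intro h1
    exact hx ⟨_, hnew i' h1, by simp⟩

theorem line_periodic (hs : IsBoxShape l r s t W H) (hT : BoxTiling l r s t T) (y : ℝ) {P : ℝ}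
    (hP : 0 < P) (hgood : GoodPeriod l r P)
    (hold : ∀ a : ℝ × ℝ, a.2 < y → y < a.2 + H → ((a.1 + P, a.2) ∈ T ↔ a ∈ T))
    (hex : ∃ p ∈ lineSet s t T y, p.1.2 < y) : ∀ x, ((x + P, y) ∈ T ↔ (x, y) ∈ T) := by
  classical
  obtain ⟨δ, hδ0, hδ'⟩ := hs.exists_min
  have hδ : ∀ i, l i + δ ≤ r i := fun i => (hδ' i).1
  by_cases hne : ∃ u, (u, y) ∈ T
  swap
  · intro u
    exact ⟨fun hh => absurd ⟨_, hh⟩ hne, fun hh => absurd ⟨_, hh⟩ hne⟩
  obtain ⟨tn, htn⟩ := hne
  obtain ⟨ia, hia⟩ := exists_bottom hs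
  obtain ⟨i₀, hi₀, hmin⟩ := Finset.exists_min_image (Finset.univ.filter fun i => s i = 0) l
    ⟨ia, by simp [hia]⟩
  simp only [Finset.mem_filter, Finset.mem_univ, true_and] at hi₀ hmin
  -- the subgroup of periods
  have holdm : ∀ v ∈ AddSubgroup.zmultiples P, ∀ b, b < y → y < b + H → ∀ u,
      ((u + v, b) ∈ T ↔ (u, b) ∈ T) := by
    intro v hv b hb1 hb2
    obtain ⟨m, rfl⟩ := hv
    induction m using Int.induction_on with
    | zero => simp
    | succ m ih =>
      intro u
      have e : u + ((m : ℤ) + 1) • P = (u + (m : ℤ) • P) + P := by simp [add_smul]; ring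
      simp only [e]
      rw [hold (_, b) hb1 hb2, ih]
    | pred m ih =>
      intro u
      rw [← ih u]
      have e : u + (-(m : ℤ)) • P = (u + (-(m : ℤ) - 1) • P) + P := by simp [sub_smul]; ring
      simp only [e]
      rw [hold (_, b) hb1 hb2]
  have holdz : ∀ (m : ℤ) b, b < y → y < b + H → ∀ u, ((u + m * P, b) ∈ T ↔ (u, b) ∈ T) :=
    fun m => holdm _ ⟨m, by simp⟩
  obtain ⟨⟨⟨t₀, b₀⟩, io⟩, ho, hlt₀⟩ := hex
  simp only at hlt₀
  have hH₀ : y < b₀ + H := (base_le hs ho).2
  obtain ⟨N, hN⟩ : ∃ N : ℕ, P ≤ N * δ := ⟨⌈P / δ⌉₊, by rw [← div_le_iff₀ hδ0]; exact Nat.le_ceil _⟩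
  have hΞ : ∀ u, (u, y) ∈ T → ∃ ξ ∈ (words l r N).image (fun d => t₀ + d),
      u - ξ ∈ AddSubgroup.zmultiples P := by
    intro u hu
    set m := ⌊((u + l i₀) - (t₀ + l io)) / P⌋ with hm
    have h1 := Int.floor_le (((u + l i₀) - (t₀ + l io)) / P)
    have h2 := Int.lt_floor_add_one (((u + l i₀) - (t₀ + l io)) / P)
    rw [← hm, le_div_iff₀ hP] at h1
    rw [← hm, div_lt_iff₀ hP] at h2
    have hw := line_words hT hδ0 hδ (p := ((t₀ + m * P, b₀), io)) (q := ((u, y), i₀)) (y := y)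
      ⟨(holdz m b₀ hlt₀ hH₀ t₀).2 ho.1, ho.2⟩ (mem_line hs hi₀ hu) (R := P)
      (by simp only [pieceX]; rw [abs_le]; constructor <;> linarith) hN
    refine ⟨t₀ + (u - (t₀ + m * P)), Finset.mem_image_of_mem _ hw, ⟨m, ?_⟩⟩
    simp only [zsmul_eq_mul]
    ring
  have hL : ∀ a, ∃ u, (u, y) ∈ T ∧ a ≤ u ∧ u ≤ a + (P + 4 * W) := by
    intro a
    set x₀ := tn + l i₀
    set m := ⌈(a + 2 * W - x₀) / P⌉ with hm
    have h1 := Int.le_ceil ((a + 2 * W - x₀) / P)
    have h2 := Int.ceil_lt_add_one ((a + 2 * W - x₀) / P)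
    rw [← hm, div_le_iff₀ hP] at h1
    rw [← hm, ← sub_lt_iff_lt_add, lt_div_iff₀ hP] at h2
    obtain ⟨⟨⟨u, b⟩, i⟩, hyj, hy1, hy2⟩ := (hT.row y (x₀ + m * P)).exists
    simp only [pieceX] at hy1 hy2
    rcases (base_le hs hyj).1.eq_or_lt with hji | hji
    · simp only at hji
      subst hji
      refine ⟨u, hyj.1, ?_, ?_⟩
      · linarith [(hs.xrange i).2, hs.wpos]
      · linarith [(hs.xrange i).1, hs.wpos]
    · exfalso
      have hz : (u - m * P, b) ∈ T := (holdz m b hji (base_le hs hyj).2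
        (u - m * P)).1 (by simpa using hyj.1)
      have := (hT.row y).eq_of_mem (s := ((tn, y), i₀)) (t := ((u - m * P, b), i)) (x := x₀)
        (mem_line hs hi₀ htn) ⟨hz, hyj.2⟩ le_rfl
        (by simp only [pieceX, x₀]; linarith [hs.lt i₀])
        (by simp only [pieceX]; linarith) (by simp only [pieceX]; linarith)
      have := congrArg (fun p : (ℝ × ℝ) × ι => p.1.2) this
      simp only at this
      exact hji.ne' this
  obtain ⟨Q, hQmem, hQ, hQT⟩ := exists_period hs hT y _ holdm _ hΞ _ hL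
  obtain ⟨NQ, hNQ⟩ := hQmem
  simp only [zsmul_eq_mul] at hNQ
  -- the equation for the indicator
  let a : ℝ → ℤ := fun u => if (u, y) ∈ T then 1 else 0
  let b : ℝ → ℤ := fun u => a (u + P) - a u
  have ha : ∀ u, 0 ≤ a u ∧ a u ≤ 1 := fun u => by simp only [a]; split_ifs <;> simp
  have hlen : ∀ p ∈ lineSet s t T y, pieceX l p + δ ≤ pieceX r p := fun p _ => by
    simp only [pieceX]; linarith [hδ p.2]
  have hS : ∀ x, (∃ p ∈ lineSet s t T y, pieceX l p = x) ↔
      ∃ p ∈ lineSet s t T y, pieceX r p = x := by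
    intro x
    constructor
    · rintro ⟨p, hp', rfl⟩
      exact (hT.row y).exists_pred hδ0 hlen hp'
    · rintro ⟨p, hp', rfl⟩
      exact (hT.row y).exists_succ hδ0 hlen hp'
  have injL : Set.InjOn (fun p : (ℝ × ℝ) × ι => p.1.1 + l p.2) (lineSet s t T y) :=
    fun p hp q hq e => (hT.row y).eq_of_mem hp hq (x := p.1.1 + l p.2) le_rfl
      (by simp only [pieceX]; linarith [hs.lt p.2])
      (by simp only [pieceX]; simp only at e; linarith)
      (by simp only [pieceX]; simp only at e; linarith [hs.lt q.2])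
  have injR : Set.InjOn (fun p : (ℝ × ℝ) × ι => p.1.1 + r p.2) (lineSet s t T y) :=
    fun p hp q hq e => (hT.row y).eq_of_mem hp hq (x := p.1.1 + r p.2 - δ)
      (by simp only [pieceX]; linarith [hδ p.2]) (by simp only [pieceX]; linarith)
      (by simp only [pieceX]; simp only at e; linarith [hδ q.2])
      (by simp only [pieceX]; simp only at e; linarith)
  have holdper : ∀ (c : ι → ℝ) x, (∃ p ∈ lineSet s t T y, p.1.1 + c p.2 = x + P ∧ p.1.2 < y) ↔
      ∃ p ∈ lineSet s t T y, p.1.1 + c p.2 = x ∧ p.1.2 < y := by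
    intro c x
    constructor
    · rintro ⟨⟨⟨u, bb⟩, i⟩, hp, hpx, hlt⟩
      have hHb := (base_le hs hp).2
      simp only at hpx hlt hHb
      exact ⟨((u - P, bb), i),
        ⟨(hold (u - P, bb) hlt hHb).1 (by simpa using hp.1), hp.2⟩,
        by simp only; linarith, hlt⟩
    · rintro ⟨⟨⟨u, bb⟩, i⟩, hp, hpx, hlt⟩
      have hHb := (base_le hs hp).2
      simp only at hpx hlt hHb
      exact ⟨((u + P, bb), i), ⟨(hold (u, bb) hlt hHb).2 hp.1, hp.2⟩,
        by simp only; linarith, hlt⟩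
  let v : {i // s i = 0} ⊕ {i // s i = 0} → ℝ := Sum.elim (fun i => l i) (fun i => r i)
  let cc : {i // s i = 0} ⊕ {i // s i = 0} → ℤ := Sum.elim (fun _ => 1) (fun _ => -1)
  have heq : ∀ x, ∑ u, cc u * b (x - v u) = 0 := by
    intro x
    have eL := count_line (s := s) (t := t) (T := T) (y := y) hs l injL
    have eR := count_line (s := s) (t := t) (T := T) (y := y) hs r injR
    have hst : ∀ z, (if ∃ p ∈ lineSet s t T y, p.1.1 + l p.2 = z then (1 : ℤ) else 0) =
        if ∃ p ∈ lineSet s t T y, p.1.1 + r p.2 = z then 1 else 0 := fun z =>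
      if_congr (hS z) rfl rfl
    have h1 := hst (x + P)
    have h0 := hst x
    rw [eL, eR] at h1 h0
    simp only [holdper] at h1
    rw [Fintype.sum_sum_type]
    simp only [cc, v, b, Sum.elim_inl, Sum.elim_inr, one_mul, neg_one_mul,
      Finset.sum_neg_distrib, Finset.sum_sub_distrib, sub_add_eq_add_sub]
    linarith
  have hb₁ : ∀ u, a (u + Q) = a u := fun u => by
    simp only [a]; exact if_congr (hQT u) rfl rfl
  have hfin : {u : ℝ | a u ≠ 0 ∧ 0 ≤ u ∧ u ≤ Q}.Finite :=
    (finite_line hT hs y 0 Q).subset fun u ⟨h1, h2⟩ => ⟨by simpa [a] using h1, h2⟩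
  have hper := periodic_of_equation a ha hQ hb₁ hfin NQ hNQ v cc (Sum.inl ⟨i₀, hi₀⟩) rfl
    (fun u => by rcases u with i | i <;> simp [cc]) (dilStep ι) (Nat.factorial_pos _)
    (fun p hp hlt => (Nat.Prime.dvd_factorial hp).2 ?_) ?_ ?_ heq
  · intro u
    have := hper u
    simp only [a] at this
    split_ifs at this with h1 h2 h2 <;> simp_all
  · have : Fintype.card ({i // s i = 0} ⊕ {i // s i = 0}) ≤ 2 * Fintype.card ι := by
      rw [Fintype.card_sum]
      have := Fintype.card_subtype_le (fun i => s i = 0)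
      omega
    omega
  · intro u hu
    rcases u with i | i
    · intro e
      have hne'' : i.1 ≠ i₀ := fun e' => hu (by simp [← e'])
      simp only [v, Sum.elim_inl] at e
      rcases hs.disjoint i.1 i₀ hne'' with h1 | h1 | h1 | h1
      · linarith [hs.lt i.1]
      · linarith [hs.lt i₀]
      · linarith [hs.st i.1, i.2]
      · linarith [hs.st i₀, i.2]
    · intro e
      simp only [v, Sum.elim_inl, Sum.elim_inr] at e
      linarith [hs.lt i.1, hmin i.1 i.2]
  · intro u hu hcom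
    refine hgood _ ?_ hu hcom
    simp only [gens, Finset.mem_insert]
    refine Or.inr (Finset.sub_mem_sub ?_ (by simp [v]))
    rcases u with i | i <;> simp [v]

theorem fault_line_periodic (hs : IsBoxShape l r s t W H) (hT : BoxTiling l r s t T) (y : ℝ)
    (hf : Fault s t T y) : ∃ P > 0, GoodPeriod l r P ∧ ∀ x, ((x + P, y) ∈ T ↔ (x, y) ∈ T) := by
  obtain ⟨Q, -, hQ, hQT⟩ := exists_period hs hT y ⊤
    (fun v _ b hb1 hb2 u => by
      have key : ∀ w, (w, b) ∉ T := fun w hw => by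
        rcases hf.no_cross hs hw with h | h <;> simp only at h <;> linarith
      exact iff_of_false (key _) (key _))
    {0} (fun u _ => ⟨0, by simp, trivial⟩) W
    (fun a => by
      obtain ⟨p, hp, h1, h2⟩ := (hT.row y (a + W)).exists
      simp only [pieceX] at h1 h2
      have hb : p.1.2 = y := hf p hp
      refine ⟨p.1.1, by rw [← hb]; exact hp.1, ?_, ?_⟩
      · linarith [(hs.xrange p.2).2]
      · linarith [(hs.xrange p.2).1])
  obtain ⟨L, hL, hgood⟩ := exists_goodPeriod l r hQ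
  refine ⟨(L : ℝ) * Q, by positivity, hgood, fun x => ?_⟩
  have hp : Function.Periodic (fun u => (u, y) ∈ T) Q := fun u => propext (hQT u)
  exact iff_of_eq (hp.nat_mul L x)

end Vale.Agent.P043.Rect
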