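import Mathlib
import Vale.Agent.P043.Rect.Defs

/-!
Helper for P043: bounded linking gives finite local complexity.
-/

namespace Vale.Agent.P043.Rect

open Vale.Agent.P043.Rows

set_option linter.unusedSectionVars false

variable {ι : Type} [Fintype ι] {l r s t : ι → ℝ} {ψ : ℝ →+ ℝ} {W H : ℝ} {T : Set (ℝ × ℝ)}

/-- Along a line, nearby tiles differ horizontally by short sums. -/
theorem line_chain (hT : BoxTiling (fun i => ψ (l i)) (fun i => ψ (r i)) (fun i => ψ (s i))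
    (fun i => ψ (t i)) T) {δ : ℝ} (hδ0 : 0 < δ) (hδ : ∀ i, ψ (l i) + δ ≤ ψ (r i)) {y : ℝ}
    {p q : (ℝ × ℝ) × ι} (hp : p ∈ lineSet (fun i => ψ (s i)) (fun i => ψ (t i)) T y)
    (hq : q ∈ lineSet (fun i => ψ (s i)) (fun i => ψ (t i)) T y) {R : ℝ}
    (hR : |pieceX (fun i => ψ (l i)) q - pieceX (fun i => ψ (l i)) p| ≤ R) {N : ℕ}
    (hN : R ≤ N * δ) : ∃ γ ∈ words l r N, ψ γ = q.1.1 - p.1.1 := by
  wlog hpq : pieceX (fun i => ψ (l i)) p ≤ pieceX (fun i => ψ (l i)) q generalizing p q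
  · obtain ⟨γ, hγ, he⟩ := this hq hp (by rwa [abs_sub_comm]) (le_of_not_ge hpq)
    exact ⟨-γ, neg_mem_words hγ, by rw [map_neg, he]; ring⟩
  obtain ⟨n, hn, γ, hγ, he⟩ := (hT.row y).chain hδ0
    (fun u _ => by simp only [pieceX]; linarith [hδ u.2]) hp hq hpq
    (fun n u => ∃ γ ∈ words l r n, ψ γ = u.1.1 - p.1.1) ⟨0, by simp [words], by simp⟩
    (fun n u v _ _ huv ⟨γ, hγ, he⟩ => by
      refine ⟨γ + (r u.2 - l v.2), Finset.add_mem_add hγ (sub_mem_gens l r _ _), ?_⟩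
      simp only [pieceX] at huv
      rw [map_add, map_sub, he]
      linarith)
  refine ⟨γ, words_mono l r ?_ hγ, he⟩
  have h1 : (n : ℝ) * δ ≤ (N : ℝ) * δ := hn.trans (((le_abs_self _).trans hR).trans hN)
  exact_mod_cast le_of_mul_le_mul_right h1 hδ0

/-- Two tiles near each other differ horizontally by a short sum, when the horizontal lines
between them are crossed at bounded distance. -/
theorem xdiff (hs : IsBoxShape (fun i => ψ (l i)) (fun i => ψ (r i)) (fun i => ψ (s i))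
      (fun i => ψ (t i)) W H)
    (hT : BoxTiling (fun i => ψ (l i)) (fun i => ψ (r i)) (fun i => ψ (s i)) (fun i => ψ (t i)) T)
    {δ : ℝ} (hδ0 : 0 < δ) (hδ : ∀ i, ψ (l i) + δ ≤ ψ (r i) ∧ ψ (s i) + δ ≤ ψ (t i))
    {a b : ℝ × ℝ} (ha : a ∈ T) (hb : b ∈ T) {L R : ℝ} (hax : |b.1 - a.1| ≤ R)
    (hay : |b.2 - a.2| ≤ R)
    (hlink : ∀ x y, a.1 ≤ x → x ≤ a.1 + W → min a.2 b.2 ≤ y → y ≤ max a.2 b.2 + H →
      ∃ p ∈ lineSet (fun i => ψ (s i)) (fun i => ψ (t i)) T y,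
        |pieceX (fun i => ψ (l i)) p - x| ≤ L ∧ p.1.2 < y)
    {N n : ℕ} (hN : L + R + 4 * W ≤ N * δ) (hn : R + 3 * H ≤ n * δ) :
    ∃ γ ∈ words l r (n * (N + N) + N), ψ γ = b.1 - a.1 := by
  have hW := hs.wpos
  have hH := hs.hpos
  have hR0 : 0 ≤ R := (abs_nonneg _).trans hax
  have hpX : ∀ {x : ℝ} {u : (ℝ × ℝ) × ι}, pieceX (fun i => ψ (l i)) u ≤ x →
      x < u.1.1 + ψ (r u.2) → x - W ≤ u.1.1 ∧ u.1.1 ≤ x := fun {x u} h1 h2 => by
    simp only [pieceX] at h1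
    exact ⟨by linarith [(hs.xrange u.2).2], by linarith [(hs.xrange u.2).1]⟩
  have hpW : ∀ u : (ℝ × ℝ) × ι, u.1.1 ≤ pieceX (fun i => ψ (l i)) u ∧
      pieceX (fun i => ψ (l i)) u ≤ u.1.1 + W := fun u => by
    simp only [pieceX]
    exact ⟨by linarith [(hs.xrange u.2).1], by linarith [(hs.xrange u.2).2, hs.lt u.2]⟩
  obtain ⟨ia, hia1, hia2⟩ := hs.xfull 0 le_rfl hW
  obtain ⟨ib, hib1, hib2⟩ := hs.xfull 0 le_rfl hW
  set x₀ := a.1 + ψ (l ia)
  have hx₀ : a.1 ≤ x₀ ∧ x₀ ≤ a.1 + W :=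
    ⟨by linarith [(hs.xrange ia).1], by linarith [(hs.xrange ia).2, hs.lt ia]⟩
  set yb := b.2 + ψ (s ib)
  obtain ⟨⟨c, ic⟩, ⟨hc, hc1, hc2⟩, -⟩ := hT (x₀, yb)
  simp only at hc hc1 hc2
  have hcol := hT.swap.row x₀
  set A : (ℝ × ℝ) × ι := ((a.2, a.1), ia)
  set C : (ℝ × ℝ) × ι := ((c.2, c.1), ic)
  have hA : A ∈ lineSet (fun i => ψ (l i)) (fun i => ψ (r i)) (swapSet T) x₀ :=
    ⟨ha, le_rfl, by simp only [A, x₀]; linarith [hs.lt ia]⟩
  have hC : C ∈ lineSet (fun i => ψ (l i)) (fun i => ψ (r i)) (swapSet T) x₀ := ⟨hc, hc1⟩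
  -- a step between stacked pieces
  have hstep : ∀ u v : (ℝ × ℝ) × ι, u ∈ lineSet (fun i => ψ (l i)) (fun i => ψ (r i)) (swapSet T) x₀ →
      v ∈ lineSet (fun i => ψ (l i)) (fun i => ψ (r i)) (swapSet T) x₀ →
      u.1.1 + ψ (t u.2) = v.1.1 + ψ (s v.2) →
      min a.2 b.2 ≤ v.1.1 + ψ (s v.2) → v.1.1 + ψ (s v.2) ≤ max a.2 b.2 + H →
      ∃ γ ∈ words l r (N + N), ψ γ = v.1.2 - u.1.2 := by
    rintro ⟨⟨u2, u1⟩, iu⟩ ⟨⟨v2, v1⟩, iv⟩ ⟨huT, hu1, hu2⟩ ⟨hvT, hv1, hv2⟩ hl h1 h2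
    simp only at hu1 hu2 hv1 hv2 hl h1 h2
    obtain ⟨w, ⟨hwT, hw1, hw2⟩, hwx, hwy⟩ := hlink x₀ (v2 + ψ (s iv)) hx₀.1 hx₀.2 h1 h2
    set y := v2 + ψ (s iv)
    set η := min δ (y - w.1.2)
    have hη : 0 < η := lt_min hδ0 (by linarith)
    have e1 : η ≤ δ := min_le_left _ _
    have e2 : η ≤ y - w.1.2 := min_le_right _ _
    obtain ⟨iw, hiw⟩ := exists_piece (T := T) hs hwT (y := y - η) (by linarith)
      (by linarith [(hs.yrange w.2).2])
    have hu' : ((u1, u2), iu) ∈ lineSet (fun i => ψ (s i)) (fun i => ψ (t i)) T (y - η) :=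
      ⟨huT, by simp only; linarith [(hδ iu).2], by simp only; linarith⟩
    have hv' : ((v1, v2), iv) ∈ lineSet (fun i => ψ (s i)) (fun i => ψ (t i)) T y :=
      ⟨hvT, le_rfl, by simp only [y]; linarith [hs.st iv]⟩
    have a1 := hpX (x := x₀) (u := ((u1, u2), iu)) hu1 hu2
    have a2 := hpX (x := x₀) (u := ((v1, v2), iv)) hv1 hv2
    have b1 := hpW ((u1, u2), iu)
    have b2 := hpW (w.1, iw)
    have b3 := hpW ((v1, v2), iv)
    have b4 := hpW w
    simp only at a1 a2 b1 b2 b3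
    have hwx' := abs_le.1 hwx
    obtain ⟨γ₁, hγ₁, he₁⟩ := line_chain hT hδ0 (fun i => (hδ i).1) hu' hiw (R := L + R + 4 * W)
      (by rw [abs_le]; constructor <;> linarith) hN
    obtain ⟨γ₂, hγ₂, he₂⟩ := line_chain hT hδ0 (fun i => (hδ i).1) ⟨hwT, hw1, hw2⟩ hv'
      (R := L + R + 4 * W) (by rw [abs_le]; constructor <;> linarith) hN
    refine ⟨γ₁ + γ₂, add_mem_words hγ₁ hγ₂, ?_⟩
    rw [map_add, he₁, he₂]
    simp only
    ring
  -- the column from `a` to the height of `b`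
  have hlenc : ∀ u ∈ lineSet (fun i => ψ (l i)) (fun i => ψ (r i)) (swapSet T) x₀,
      pieceX (fun i => ψ (s i)) u + δ ≤ pieceX (fun i => ψ (t i)) u := fun u _ => by
    simp only [pieceX]; linarith [(hδ u.2).2]
  have hA2 : a.2 ≤ pieceX (fun i => ψ (s i)) A ∧ pieceX (fun i => ψ (s i)) A ≤ a.2 + H := by
    simp only [A, pieceX]
    exact ⟨by linarith [(hs.yrange ia).1], by linarith [(hs.yrange ia).2, hs.st ia]⟩
  have hyb : b.2 ≤ yb ∧ yb ≤ b.2 + H :=
    ⟨by linarith [(hs.yrange ib).1], by linarith [(hs.yrange ib).2, hs.st ib]⟩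
  have hC2 : pieceX (fun i => ψ (s i)) C ≤ yb ∧ yb - H ≤ pieceX (fun i => ψ (s i)) C := by
    simp only [C, pieceX]
    exact ⟨hc2.1, by linarith [(hs.yrange ic).1, (hs.yrange ic).2]⟩
  have hmin : min a.2 b.2 ≤ a.2 := min_le_left _ _
  have hmin' : min a.2 b.2 ≤ b.2 := min_le_right _ _
  have hmax : a.2 ≤ max a.2 b.2 := le_max_left _ _
  have hmax' : b.2 ≤ max a.2 b.2 := le_max_right _ _
  have hay' := abs_le.1 hay
  -- positions reached, as long as they lie between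
  have hcol' : ∃ γ ∈ words l r (n * (N + N)), ψ γ = c.1 - a.1 := by
    rcases le_total (pieceX (fun i => ψ (s i)) A) (pieceX (fun i => ψ (s i)) C) with hac | hac
    · obtain ⟨m, hm, hP⟩ := hcol.chain hδ0 hlenc hA hC hac
        (fun m u => pieceX (fun i => ψ (s i)) A ≤ pieceX (fun i => ψ (s i)) u ∧
          (pieceX (fun i => ψ (s i)) u ≤ pieceX (fun i => ψ (s i)) C →
          ∃ γ ∈ words l r (m * (N + N)), ψ γ = u.1.2 - a.1))
        ⟨le_rfl, fun _ => ⟨0, by simp [words], by simp [A]⟩⟩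
        (fun m u v hu hv huv ⟨hlo, ih⟩ => by
          have hl1 := hlenc u hu
          refine ⟨by simp only [pieceX] at huv hl1 hlo ⊢; linarith, fun hvC => ?_⟩
          obtain ⟨γ, hγ, he⟩ := ih (by simp only [pieceX] at huv hl1 hvC ⊢; linarith)
          obtain ⟨γ', hγ', he'⟩ := hstep u v hu hv huv
            (by simp only [pieceX] at huv hl1 hlo hvC hA2 hC2 ⊢; linarith)
            (by simp only [pieceX] at huv hl1 hlo hvC hA2 hC2 ⊢; linarith)
          refine ⟨γ + γ', ?_, by rw [map_add, he, he']; ring⟩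
          rw [add_mul, one_mul]
          exact add_mem_words hγ hγ')
      obtain ⟨γ, hγ, he⟩ := hP.2 le_rfl
      refine ⟨γ, words_mono l r (Nat.mul_le_mul_right _ ?_) hγ, he⟩
      have : (m : ℝ) * δ ≤ n * δ := by linarith
      exact_mod_cast le_of_mul_le_mul_right this hδ0
    · obtain ⟨m, hm, hP⟩ := hcol.chain hδ0 hlenc hC hA hac
        (fun m u => pieceX (fun i => ψ (s i)) C ≤ pieceX (fun i => ψ (s i)) u ∧
          (pieceX (fun i => ψ (s i)) u ≤ pieceX (fun i => ψ (s i)) A →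
          ∃ γ ∈ words l r (m * (N + N)), ψ γ = u.1.2 - c.1))
        ⟨le_rfl, fun _ => ⟨0, by simp [words], by simp [C]⟩⟩
        (fun m u v hu hv huv ⟨hlo, ih⟩ => by
          have hl1 := hlenc u hu
          refine ⟨by simp only [pieceX] at huv hl1 hlo ⊢; linarith, fun hvA => ?_⟩
          obtain ⟨γ, hγ, he⟩ := ih (by simp only [pieceX] at huv hl1 hvA ⊢; linarith)
          have hlow : min a.2 b.2 ≤ v.1.1 + ψ (s v.2) := by
            by_cases hlt : v.1.1 + ψ (s v.2) < yb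
            · exfalso
              have := hcol.eq_of_mem (s := C) (t := v) (x := v.1.1 + ψ (s v.2)) hC hv
                (by simp only [pieceX] at huv hl1 hlo ⊢; linarith)
                (by simp only [pieceX, C]; linarith [hc2.2])
                le_rfl (by simp only [pieceX]; linarith [(hδ v.2).2])
              simp only [pieceX] at huv hl1 hlo
              rw [← this] at huv
              linarith
            · linarith [not_lt.1 hlt]
          obtain ⟨γ', hγ', he'⟩ := hstep u v hu hv huv hlow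
            (by simp only [pieceX] at huv hl1 hlo hvA hA2 hC2 ⊢; linarith)
          refine ⟨γ + γ', ?_, by rw [map_add, he, he']; ring⟩
          rw [add_mul, one_mul]
          exact add_mem_words hγ hγ')
      obtain ⟨γ, hγ, he⟩ := hP.2 le_rfl
      refine ⟨-γ, neg_mem_words (words_mono l r (Nat.mul_le_mul_right _ ?_) hγ),
        by rw [map_neg, he]; simp [A]⟩
      have : (m : ℝ) * δ ≤ n * δ := by linarith
      exact_mod_cast le_of_mul_le_mul_right this hδ0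
  obtain ⟨γ, hγ, he⟩ := hcol'
  have a1 := hpX (x := x₀) (u := (c, ic)) hc1.1 hc1.2
  have b1 := hpW (c, ic)
  have b2 := hpW (b, ib)
  have hax' := abs_le.1 hax
  simp only at a1 b1 b2
  have hL0 : 0 ≤ L := by
    obtain ⟨w, -, hw, -⟩ := hlink x₀ (min a.2 b.2) hx₀.1 hx₀.2 le_rfl (by linarith)
    exact (abs_nonneg _).trans hw
  obtain ⟨γ', hγ', he'⟩ := line_chain hT hδ0 (fun i => (hδ i).1)
    (p := (c, ic)) (q := (b, ib)) (y := yb) ⟨hc, hc2⟩
    ⟨hb, le_rfl, by simp only [yb]; linarith [hs.st ib]⟩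
    (R := L + R + 4 * W) (by rw [abs_le]; constructor <;> linarith) hN
  exact ⟨γ + γ', add_mem_words hγ hγ', by rw [map_add, he, he']; ring⟩

/-- Linking in both directions gives finite local complexity. -/
theorem near_of_linked (hs : IsBoxShape (fun i => ψ (l i)) (fun i => ψ (r i)) (fun i => ψ (s i))
      (fun i => ψ (t i)) W H)
    (hT : BoxTiling (fun i => ψ (l i)) (fun i => ψ (r i)) (fun i => ψ (s i)) (fun i => ψ (t i)) T)
    {δ : ℝ} (hδ0 : 0 < δ) (hδ : ∀ i, ψ (l i) + δ ≤ ψ (r i) ∧ ψ (s i) + δ ≤ ψ (t i))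
    {L Y Y' R : ℝ} (hY : Y ≤ Y')
    (hh : Linked (fun i => ψ (l i)) (fun i => ψ (s i)) (fun i => ψ (t i)) T L Y)
    (hv : LinkedV (fun i => ψ (l i)) (fun i => ψ (r i)) (fun i => ψ (s i)) T L Y)
    {N n : ℕ} (hN : L + R + 4 * (W + H) ≤ N * δ) (hn : R + 3 * (W + H) ≤ n * δ) :
    Near l r s t ψ T R (n * (N + N) + N) Y' := by
  intro a ha b hb hay hby hdx hdy
  obtain ⟨γ, hγ, he⟩ := xdiff hs hT hδ0 hδ ha hb hdx hdy
    (fun x y _ _ h1 _ => hh x y (le_trans (le_min (hY.trans hay) (hY.trans hby)) h1))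
    (N := N) (n := n) (by linarith [hs.hpos]) (by linarith [hs.wpos])
  obtain ⟨γ', hγ', he'⟩ := xdiff (l := s) (r := t) (s := l) (t := r) hs.swap hT.swap hδ0
    (fun i => ⟨(hδ i).2, (hδ i).1⟩) (a := (a.2, a.1)) (b := (b.2, b.1)) ha hb hdy hdx
    (fun x y h1 _ _ _ => hv y x (le_trans (hY.trans hay) h1))
    (N := N) (n := n) (by linarith [hs.wpos]) (by linarith [hs.hpos])
  exact ⟨γ, hγ, γ', hγ', he, he'⟩

end Vale.Agent.P043.Rect
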