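import Mathlib
import Vale.Agent.P043.Rect.Near
import Vale.Agent.P043.Rect.Line
import Vale.Agent.P043.Rect.Limit

/-!
Helper for P043: a tiling with a fault line gives a periodic tiling.
-/

namespace Vale.Agent.P043.Rect

open Vale.Agent.P043.Rows Filter

set_option linter.unusedSectionVars false

variable {ι : Type} [Fintype ι] {l r s t : ι → ℝ} {W H : ℝ} {T : Set (ℝ × ℝ)}

theorem periodic_swap (h : Periodic T) : Periodic (swapSet T) := by
  obtain ⟨u, v, huv, hu, hv⟩ := h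
  refine ⟨u.swap, v.swap, ?_, fun a => by simpa [swapSet] using hu a.swap,
    fun a => by simpa [swapSet] using hv a.swap⟩
  rw [LinearIndependent.pair_iff] at huv ⊢
  intro a b hab
  refine huv a b ?_
  have := congrArg Prod.swap hab
  simpa [Prod.swap, Prod.smul_def] using this

theorem period_translate {v w : ℝ × ℝ} (h : Period v T) : Period v {a | a + w ∈ T} := fun a => by
  simp only [Set.mem_ofPred_eq]
  rw [show a + v + w = a + w + v by abel]
  exact h (a + w)

theorem Period.iterate {v : ℝ × ℝ} (h : Period v T) (m : ℤ) : Period ((m : ℝ) • v) T := by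
  induction m using Int.induction_on with
  | zero => intro a; simp
  | succ m ih =>
    intro a
    rw [show a + (((m : ℤ) + 1 : ℤ) : ℝ) • v = (a + ((m : ℤ) : ℝ) • v) + v by
      push_cast; rw [add_smul, one_smul]; abel, h, ih]
  | pred m ih =>
    intro a
    rw [← ih a, show a + ((-(m : ℤ) : ℤ) : ℝ) • v = (a + ((-(m : ℤ) - 1 : ℤ) : ℝ) • v) + v by
      push_cast; rw [sub_smul, one_smul]; abel, h]

/-- Stack a horizontal block whose lower boundary data recur. -/
theorem stack_block (hs : IsBoxShape l r s t W H) (hT : BoxTiling l r s t T) {P v y₁ Δ : ℝ}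
    (hP : 0 < P) (hΔ : 0 < Δ)
    (hrep : ∀ a : ℝ × ℝ, y₁ - H < a.2 → a.2 < y₁ → (a ∈ T ↔ a + (v, Δ) ∈ T))
    (hper : ∀ a : ℝ × ℝ, y₁ ≤ a.2 → a.2 < y₁ + Δ → (a + (P, 0) ∈ T ↔ a ∈ T)) :
    ∃ T', BoxTiling l r s t T' ∧ Periodic T' := by
  let red : ℝ × ℝ → ℝ × ℝ := fun a =>
    (a.1 - (toIcoDiv hΔ y₁ a.2 : ℝ) * v, a.2 - (toIcoDiv hΔ y₁ a.2 : ℝ) * Δ)
  let T' : Set (ℝ × ℝ) := {a | red a ∈ T}
  have hshift : ∀ (m : ℤ) a, red (a + ((m : ℝ) * v, (m : ℝ) * Δ)) = red a := by
    intro m a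
    have e : toIcoDiv hΔ y₁ (a.2 + (m : ℝ) * Δ) = toIcoDiv hΔ y₁ a.2 + m := by
      rw [← zsmul_eq_mul, toIcoDiv_add_zsmul]
    simp only [red, Prod.fst_add, Prod.snd_add, e, Int.cast_add]
    ext <;> ring
  have hcore : ∀ a : ℝ × ℝ, y₁ ≤ a.2 → a.2 < y₁ + Δ → red a = a := by
    intro a h1 h2
    have e : toIcoDiv hΔ y₁ a.2 = 0 :=
      toIcoDiv_eq_of_sub_zsmul_mem_Ico hΔ (by simpa using ⟨h1, h2⟩)
    simp only [red, e, Int.cast_zero, zero_mul, sub_zero]
  have hwin : ∀ n : ℕ, ∀ a : ℝ × ℝ, y₁ ≤ a.2 + n * Δ → y₁ - H < a.2 → a.2 < y₁ + Δ →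
      (red a ∈ T ↔ a ∈ T) := by
    intro n
    induction n with
    | zero => intro a h1 h2 h3; rw [hcore a (by simpa using h1) h3]
    | succ n ih =>
      intro a h1 h2 h3
      push_cast at h1
      by_cases h0 : y₁ ≤ a.2
      · rw [hcore a h0 h3]
      · rw [hrep a h2 (not_le.1 h0), ← ih (a + (v, Δ)) (by simp only [Prod.snd_add]; linarith)
          (by simp only [Prod.snd_add]; linarith) (by simp only [Prod.snd_add]; linarith [not_le.1 h0])]
        have := hshift 1 a
        simp only [Int.cast_one, one_mul] at this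
        rw [this]
  have hH := hs.hpos
  refine ⟨T', fun z => ?_, (P, 0), (v, Δ), ?_, fun a => ?_, fun a => ?_⟩
  · set m : ℤ := toIcoDiv hΔ y₁ z.2
    have hm := sub_toIcoDiv_zsmul_mem_Ico hΔ y₁ z.2
    rw [zsmul_eq_mul] at hm
    obtain ⟨⟨a, i⟩, ⟨ha, ⟨e1, e2⟩, e3, e4⟩, huniq⟩ := hT (z.1 - m * v, z.2 - m * Δ)
    simp only at ha e1 e2 e3 e4
    have hiff : ∀ (b : ℝ × ℝ) (i' : ι), b.2 + s i' ≤ z.2 - m * Δ → z.2 - m * Δ < b.2 + t i' →
        (b + ((m : ℝ) * v, (m : ℝ) * Δ) ∈ T' ↔ b ∈ T) := by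
      intro b i' f1 f2
      simp only [T', Set.mem_ofPred_eq, hshift]
      have := hs.yrange i'
      obtain ⟨n, hn⟩ := exists_nat_ge ((y₁ - b.2) / Δ)
      rw [div_le_iff₀ hΔ] at hn
      exact hwin n b (by linarith) (by linarith [hm.1]) (by linarith [hm.2])
    refine ⟨(a + ((m : ℝ) * v, (m : ℝ) * Δ), i), ⟨(hiff a i e3 e4).2 ha, ?_, ?_⟩, ?_⟩
    · simp only [Prod.fst_add]; constructor <;> linarith
    · simp only [Prod.snd_add]; constructor <;> linarith
    rintro ⟨b, i'⟩ ⟨hb, ⟨g1, g2⟩, g3, g4⟩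
    simp only at hb g1 g2 g3 g4
    have hb' := (hiff (b - ((m : ℝ) * v, (m : ℝ) * Δ)) i' (by simp only [Prod.snd_sub]; linarith)
      (by simp only [Prod.snd_sub]; linarith)).1 (by simpa using hb)
    have := huniq (b - ((m : ℝ) * v, (m : ℝ) * Δ), i') ⟨hb', by
      simp only [Prod.fst_sub]; constructor <;> linarith, by
      simp only [Prod.snd_sub]; constructor <;> linarith⟩
    simp only [Prod.mk.injEq] at this ⊢
    exact ⟨by rw [← this.1]; abel, this.2⟩
  · rw [LinearIndependent.pair_iff]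
    intro c d hcd
    simp only [Prod.smul_mk, smul_eq_mul, Prod.mk_add_mk, Prod.mk_eq_zero, mul_zero, zero_add]
      at hcd
    have hd : d = 0 := (mul_eq_zero.1 hcd.2).resolve_right hΔ.ne'
    subst hd
    exact ⟨(mul_eq_zero.1 (by simpa using hcd.1)).resolve_right hP.ne', rfl⟩
  · simp only [T', Set.mem_ofPred_eq]
    have hred : red (a + (P, 0)) = red a + (P, 0) := by
      simp only [red, Prod.fst_add, Prod.snd_add, add_zero]; ext <;> simp [add_sub_right_comm]
    have hm := sub_toIcoDiv_zsmul_mem_Ico hΔ y₁ a.2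
    rw [zsmul_eq_mul] at hm
    rw [hred]
    exact hper (red a) hm.1 hm.2
  · simp only [T', Set.mem_ofPred_eq]
    have := hshift 1 a
    simp only [Int.cast_one, one_mul] at this
    rw [this]

/-- A block between two faults. -/
theorem periodic_slab (hs : IsBoxShape l r s t W H) (hT : BoxTiling l r s t T) {P y₁ y₂ : ℝ}
    (hP : 0 < P) (hy : y₁ < y₂) (h1 : Fault s t T y₁) (h2 : Fault s t T y₂)
    (hper : ∀ a : ℝ × ℝ, y₁ ≤ a.2 → a.2 < y₂ → (a + (P, 0) ∈ T ↔ a ∈ T)) :
    ∃ T', BoxTiling l r s t T' ∧ Periodic T' := by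
  refine stack_block hs hT (v := 0) (y₁ := y₁) hP (sub_pos.2 hy)
    (fun a e1 e2 => iff_of_false (fun ha => ?_) (fun ha => ?_))
    (fun a e1 e2 => hper a e1 (by linarith))
  · rcases h1.no_cross hs ha with c | c <;> linarith
  · rcases h2.no_cross hs ha with c | c <;> simp only [Prod.snd_add] at c <;> linarith

/-- Base heights above a fault line come in finite sets. -/
theorem finite_levels (hs : IsBoxShape l r s t W H) (hT : BoxTiling l r s t T)
    (hf : Fault s t T 0) (Y : ℝ) :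
    ∃ F : Finset ℝ, ∀ a ∈ T, 0 ≤ a.2 → a.2 ≤ Y → a.2 ∈ F := by
  classical
  obtain ⟨δ, hδ0, hδ⟩ := hs.exists_min
  have main : ∀ n : ℕ, ∃ F : Finset ℝ, ∀ a ∈ T, 0 ≤ a.2 → a.2 < n * δ → a.2 ∈ F := by
    intro n
    induction n with
    | zero => exact ⟨∅, fun a _ h1 h2 => absurd h2 (by simpa using not_lt.2 h1)⟩
    | succ n ih =>
      obtain ⟨F, hF⟩ := ih
      refine ⟨insert 0 (F ∪ (F ×ˢ (Finset.univ : Finset ι)).image fun x => x.1 + t x.2),
        fun a ha h1 h2 => ?_⟩
      rcases h1.eq_or_lt with h1 | h1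
      · rw [← h1]; exact Finset.mem_insert_self _ _
      obtain ⟨i, hi1, -⟩ := hs.yfull 0 le_rfl hs.hpos
      have hi0 : s i = 0 := le_antisymm hi1 (hs.yrange i).1
      obtain ⟨⟨⟨u2, u1⟩, iu⟩, hu, hu'⟩ :=
        (hT.swap.row (a.1 + l i)).exists_pred (p := pieceX s) (q := pieceX t) hδ0
          (fun u _ => by simp only [pieceX]; linarith [(hδ u.2).2]) (s := ((a.2, a.1), i))
          ⟨ha, le_rfl, by simp only; linarith [hs.lt i]⟩
      obtain ⟨huT, -, -⟩ := hu
      simp only [pieceX, hi0, add_zero] at hu'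
      have hy := hs.yrange iu
      have hu0 : 0 ≤ u2 := by
        rcases hf.no_cross hs (a := (u1, u2)) huT with c | c
        · exact c
        · simp only at c; linarith
      have hFu := hF (u1, u2) huT hu0
        (by simp only; push_cast at h2; linarith [(hδ iu).2, hy.1])
      refine Finset.mem_insert_of_mem (Finset.mem_union_right _ (Finset.mem_image.2
        ⟨(u2, iu), Finset.mem_product.2 ⟨hFu, Finset.mem_univ _⟩, hu'⟩))
  obtain ⟨n, hn⟩ := exists_nat_gt (Y / δ)
  rw [div_lt_iff₀ hδ0] at hn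
  obtain ⟨F, hF⟩ := main n
  exact ⟨F, fun a ha h1 h2 => hF a ha h1 (by linarith)⟩

/-- Above a fault, all levels share one period, unless another fault appears. -/
theorem fault_cases (hs : IsBoxShape l r s t W H) (hT : BoxTiling l r s t T) (hf : Fault s t T 0) :
    (∃ T', BoxTiling l r s t T' ∧ Periodic T') ∨ ∃ P > 0,
      (∀ a : ℝ × ℝ, 0 ≤ a.2 → (a + (P, 0) ∈ T ↔ a ∈ T)) ∧ ∀ y, 0 < y → ¬ Fault s t T y := by
  classical
  by_contra hno
  push Not at hno
  obtain ⟨hnoP, hno⟩ := hno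
  obtain ⟨P, hP, hgood, hP0⟩ := fault_line_periodic hs hT 0 hf
  have hnone : ∀ (a : ℝ × ℝ), ¬ (-H < a.2 ∧ a.2 < 0 ∧ a ∈ T) := fun a ⟨e1, e2, ha⟩ => by
    rcases hf.no_cross hs ha with c | c <;> linarith
  -- every level is periodic
  have key : ∀ n : ℕ, ∀ y, 0 ≤ y → ∀ F : Finset ℝ, (∀ a ∈ T, 0 ≤ a.2 → a.2 < y → a.2 ∈ F) →
      F.card ≤ n → ∀ x, ((x + P, y) ∈ T ↔ (x, y) ∈ T) := by
    intro n
    induction n using Nat.strong_induction_on with
    | _ n ih =>
      intro y hy F hF hcard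
      rcases hy.eq_or_lt with rfl | hy'
      · exact hP0
      have hbelow : ∀ a : ℝ × ℝ, -H < a.2 → a.2 < y → (a + (P, 0) ∈ T ↔ a ∈ T) := by
        intro a e1 e2
        rcases lt_or_ge a.2 0 with e | e
        · exact iff_of_false (fun h => hnone _ ⟨by simpa using e1, by simpa using e, h⟩)
            (fun h => hnone a ⟨e1, e, h⟩)
        by_cases hlev : ∃ x, (x, a.2) ∈ T
        · obtain ⟨x, hx⟩ := hlev
          have haF : a.2 ∈ F := hF (x, a.2) hx e e2
          have := ih (F.filter (· < a.2)).card (lt_of_lt_of_le (Finset.card_lt_card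
            (Finset.filter_ssubset.2 ⟨a.2, haF, lt_irrefl _⟩)) hcard) a.2 e (F.filter (· < a.2))
            (fun b hb b1 b2 => Finset.mem_filter.2 ⟨hF b hb b1 (by linarith), b2⟩) le_rfl a.1
          rw [show a + (P, 0) = (a.1 + P, a.2) by ext <;> simp]
          exact this
        · push Not at hlev
          refine iff_of_false ?_ (hlev a.1)
          rw [show a + (P, 0) = (a.1 + P, a.2) by ext <;> simp]
          exact hlev _
      by_cases hfy : Fault s t T y
      · exfalso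
        obtain ⟨T', hT', hper'⟩ := periodic_slab hs hT hP hy' hf hfy
          (fun a e1 e2 => hbelow a (by linarith [hs.hpos]) e2)
        exact hnoP T' hT' hper'
      · simp only [Fault, not_forall] at hfy
        obtain ⟨p, hp, hne⟩ := hfy
        refine line_periodic hs hT y hP hgood (fun a e1 e2 => ?_)
          ⟨p, hp, lt_of_le_of_ne (base_le hs hp).1 hne⟩
        rw [show (a.1 + P, a.2) = a + (P, 0) by ext <;> simp]
        exact hbelow a (by linarith) e1
  have hall : ∀ a : ℝ × ℝ, 0 ≤ a.2 → (a + (P, 0) ∈ T ↔ a ∈ T) := by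
    intro a ha
    obtain ⟨F, hF⟩ := finite_levels hs hT hf a.2
    have := key F.card a.2 ha F (fun b hb b1 b2 => hF b hb b1 b2.le) le_rfl a.1
    rw [show a + (P, 0) = (a.1 + P, a.2) by ext <;> simp]
    exact this
  obtain ⟨y, hy, hfy⟩ := hno P hP hall
  obtain ⟨T', hT', hper'⟩ := periodic_slab hs hT hP hy hf hfy (fun a e1 _ => hall a e1)
  exact hnoP T' hT' hper'

/-- A fault line gives a periodic tiling. -/
theorem periodic_of_fault (hs : IsBoxShape l r s t W H) (hT : BoxTiling l r s t T)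
    (hf : Fault s t T 0) : ∃ T', BoxTiling l r s t T' ∧ Periodic T' := by
  classical
  rcases fault_cases hs hT hf with h | ⟨P, hP, hper, hnof⟩
  · exact h
  obtain ⟨δ, hδ0, hδ⟩ := hs.exists_min
  have hW := hs.wpos
  have hH := hs.hpos
  have hperm : ∀ (m : ℤ) (a : ℝ × ℝ), 0 ≤ a.2 → (a + ((m : ℝ) * P, 0) ∈ T ↔ a ∈ T) := by
    intro m
    have h' : Period (P, 0) {a : ℝ × ℝ | 0 ≤ a.2 ∧ a ∈ T} := fun a => by
      simp only [Set.mem_ofPred_eq, Prod.snd_add, add_zero]
      exact and_congr_right fun ha => hper a ha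
    intro a ha
    have := h'.iterate m a
    simp only [Set.mem_ofPred_eq, Prod.smul_mk, smul_eq_mul, mul_zero, Prod.snd_add, add_zero,
      ha, true_and] at this
    exact this
  -- crossings above the fault
  have hlink : Linked l s t T (P + 2 * W) (H + 1) := by
    intro x y hy
    obtain ⟨p, hp, hne⟩ : ∃ p ∈ lineSet s t T y, p.1.2 ≠ y := by
      have := hnof y (by linarith)
      simp only [Fault, not_forall] at this
      obtain ⟨p, hp, hne⟩ := this
      exact ⟨p, hp, hne⟩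
    obtain ⟨hb1, hb2⟩ := base_le hs hp
    obtain ⟨m, e1, e2⟩ : ∃ m : ℤ, (m : ℝ) ≤ (x - pieceX l p) / P ∧
        (x - pieceX l p) / P < m + 1 := ⟨_, Int.floor_le _, Int.lt_floor_add_one _⟩
    refine ⟨(p.1 + ((m : ℝ) * P, 0), p.2), ⟨(hperm m p.1 (by linarith)).2 hp.1, ?_, ?_⟩, ?_, ?_⟩
    · simpa using hp.2.1
    · simpa using hp.2.2
    · rw [le_div_iff₀ hP] at e1
      rw [div_lt_iff₀ hP] at e2
      simp only [pieceX, Prod.fst_add] at e1 e2 ⊢
      rw [abs_le]; constructor <;> linarith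
    · simpa using lt_of_le_of_ne hb1 hne
  by_cases hv : ∃ L, LinkedV l r s T L (H + 1)
  · -- windows recur
    obtain ⟨L₀, hL₀⟩ := hv
    set L := max L₀ (P + 2 * W)
    have hl1 : Linked l s t T L (H + 1) := fun x y hy => by
      obtain ⟨p, hp, hd, hlt⟩ := hlink x y hy
      exact ⟨p, hp, hd.trans (le_max_right _ _), hlt⟩
    have hl2 : LinkedV l r s T L (H + 1) := fun x y hy => by
      obtain ⟨p, hp, hd, hlt⟩ := hL₀ x y hy
      exact ⟨p, hp, hd.trans (le_max_left _ _), hlt⟩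
    set R := P + W + H
    obtain ⟨N, hN⟩ := exists_nat_ge ((L + R + 4 * (W + H)) / δ)
    obtain ⟨n, hn⟩ := exists_nat_ge ((R + 3 * (W + H)) / δ)
    rw [div_le_iff₀ hδ0] at hN hn
    have hnear := near_of_linked (ψ := AddMonoidHom.id ℝ) (l := l) (r := r) (s := s) (t := t)
      hs hT hδ0 hδ le_rfl hl1 hl2 hN hn
    set K := n * (N + N) + N
    have hc : ∀ k : ℕ, ∃ c ∈ T, (k : ℝ) * (H + 1) + 2 * H + 2 - H < c.2 ∧
        c.2 ≤ (k : ℝ) * (H + 1) + 2 * H + 2 := fun k => by
      obtain ⟨⟨c, i⟩, ⟨hc, -, e1, e2⟩, -⟩ := hT (0, (k : ℝ) * (H + 1) + 2 * H + 2)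
      simp only at hc e1 e2
      exact ⟨c, hc, by linarith [(hs.yrange i).2], by linarith [(hs.yrange i).1]⟩
    choose c hcT hc1 hc2 using hc
    let code : ℕ → Finset (ℝ × ℝ) := fun k => ((words l r K) ×ˢ (words s t K)).filter fun g =>
      -H < g.2 ∧ g.2 < 0 ∧ c (k + 2) + g ∈ T
    obtain ⟨k₁, hk1, k₂, hk2, hne, heq⟩ := Finset.exists_ne_map_eq_of_card_lt_of_maps_to
      (s := Finset.range (((words l r K) ×ˢ (words s t K)).powerset.card + 1))
      (t := ((words l r K) ×ˢ (words s t K)).powerset) (f := code)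
      (by simp) (fun k _ => Finset.mem_powerset.2 (Finset.filter_subset _ _))
    wlog hlt : k₁ < k₂ generalizing k₁ k₂
    · exact this k₂ hk2 k₁ hk1 hne.symm heq.symm (by omega)
    set c₁ := c (k₁ + 2)
    set c₂ := c (k₂ + 2)
    have hd : c₁.2 < c₂.2 := by
      have h1 := hc2 (k₁ + 2)
      have h2 := hc1 (k₂ + 2)
      have h3 : ((k₁ + 2 : ℕ) : ℝ) + 1 ≤ ((k₂ + 2 : ℕ) : ℝ) := by exact_mod_cast (by omega)
      have h4 := mul_le_mul_of_nonneg_right h3 (by linarith : (0 : ℝ) ≤ H + 1)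
      simp only [c₁, c₂]
      linarith
    have hlow : ∀ k, 2 * H + 1 ≤ (c (k + 2)).2 := fun k => by
      have h1 := hc1 (k + 2)
      have : H + 1 ≤ ((k + 2 : ℕ) : ℝ) * (H + 1) :=
        le_mul_of_one_le_left (by linarith) (by exact_mod_cast Nat.le_add_left 1 (k + 1))
      linarith
    have hloc : ∀ k, ∀ a ∈ T, -H < a.2 - (c (k + 2)).2 → a.2 - (c (k + 2)).2 < 0 →
        ∃ g : ℝ × ℝ, ∃ m : ℤ, g ∈ code k ∧ a = c (k + 2) + g + ((m : ℝ) * P, 0) := by
      intro k a ha e1 e2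
      have hl := hlow k
      obtain ⟨m, f1, f2⟩ : ∃ m : ℤ, (m : ℝ) ≤ (a.1 - (c (k + 2)).1) / P ∧
          (a.1 - (c (k + 2)).1) / P < m + 1 := ⟨_, Int.floor_le _, Int.lt_floor_add_one _⟩
      rw [le_div_iff₀ hP] at f1
      rw [div_lt_iff₀ hP] at f2
      have ha' : a + (((-m : ℤ) : ℝ) * P, 0) ∈ T := (hperm (-m) a (by linarith)).2 ha
      obtain ⟨γ, hγ, γ', hγ', g1, g2⟩ := hnear _ (hcT (k + 2)) _ ha' (by linarith)
        (by simp only [Prod.snd_add, add_zero]; linarith)
        (by simp only [Prod.fst_add, R]; push_cast; rw [abs_le]; constructor <;> linarith)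
        (by simp only [Prod.snd_add, add_zero, R]; rw [abs_le]; constructor <;> linarith)
      simp only [AddMonoidHom.id_apply, Prod.fst_add, Prod.snd_add, add_zero] at g1 g2
      push_cast at g1 g2
      have hg : c (k + 2) + (γ, γ') = a + (((-m : ℤ) : ℝ) * P, 0) := by
        ext <;> simp only [Prod.fst_add, Prod.snd_add] <;> push_cast <;> linarith
      refine ⟨(γ, γ'), m, Finset.mem_filter.2 ⟨Finset.mem_product.2 ⟨hγ, hγ'⟩,
        by simp only; linarith, by simp only; linarith, by rw [hg]; exact ha'⟩, ?_⟩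
      ext <;> simp only [Prod.fst_add, Prod.snd_add] <;> linarith
    have hback : ∀ k, ∀ g ∈ code k, ∀ m : ℤ, c (k + 2) + g + ((m : ℝ) * P, 0) ∈ T := by
      intro k g hg m
      obtain ⟨-, g1, -, g3⟩ := Finset.mem_filter.1 hg
      exact (hperm m _ (by simp only [Prod.snd_add]; linarith [hlow k])).2 g3
    refine stack_block hs hT (v := c₂.1 - c₁.1) (y₁ := c₁.2) hP (sub_pos.2 hd)
      (fun a e1 e2 => ?_) (fun a e1 e2 => hper a (by linarith [hlow k₁]))
    have hv2 : (c₂.1 - c₁.1, c₂.2 - c₁.2) = c₂ - c₁ := by ext <;> simp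
    rw [hv2]
    constructor
    · intro ha
      obtain ⟨g, m, hg, rfl⟩ := hloc k₁ a ha (by linarith) (by linarith)
      rw [heq] at hg
      have := hback k₂ g hg m
      rwa [show c₁ + g + ((m : ℝ) * P, (0 : ℝ)) + (c₂ - c₁) = c₂ + g + ((m : ℝ) * P, 0) by abel]
    · intro ha
      obtain ⟨g, m, hg, he⟩ := hloc k₂ _ ha
        (by simp only [Prod.snd_add, Prod.snd_sub, c₁, c₂] at *; linarith)
        (by simp only [Prod.snd_add, Prod.snd_sub, c₁, c₂] at *; linarith)
      rw [← heq] at hg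
      have := hback k₁ g hg m
      rwa [show a = c₁ + g + ((m : ℝ) * P, (0 : ℝ)) by
        rw [show a = a + (c₂ - c₁) - (c₂ - c₁) by abel, he]; abel]
  · -- a long vertical segment gives a vertical fault in a periodic tiling
    have hseg : ∀ k : ℕ, ∃ x y, H + 1 ≤ y ∧ ∀ p ∈ lineSet l r (swapSet T) x,
        |pieceX s p - y| ≤ 2 * k → p.1.2 = x := by
      intro k
      by_contra hk
      push Not at hk
      refine hv ⟨2 * k, fun x y hy => ?_⟩
      obtain ⟨p, hp, hd, hne⟩ := hk x y hy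
      exact ⟨p, hp, hd, lt_of_le_of_ne (base_le hs.swap hp).1 hne⟩
    choose xs ys hys hxy using hseg
    obtain ⟨T₁, hT₁, -, hv₁, hp₁⟩ := box_limit hs (fun _ => l) (fun _ => r) (fun _ => s)
      (fun _ => t) (fun _ => W) (fun _ => H) (fun _ => hs) (fun _ => tendsto_const_nhds)
      (fun _ => tendsto_const_nhds) (fun _ => tendsto_const_nhds) (fun _ => tendsto_const_nhds)
      (fun k => {a | a + (xs k, ys k + k) ∈ T}) (fun k => hT.translate _)
    have hD : Tendsto (fun k : ℕ => (k : ℝ) - H) atTop atTop :=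
      tendsto_atTop_add_const_right _ _ tendsto_natCast_atTop_atTop
    have hV : Fault l r (swapSet T₁) 0 := by
      refine hv₁ _ hD ?_
      rintro k ⟨⟨b, a⟩, i⟩ ⟨hm, e1, e2⟩ hb
      simp only [swapSet, Set.mem_preimage, Prod.swap_prod_mk, Set.mem_ofPred_eq, Prod.mk_add_mk]
        at hm
      simp only at hb e1 e2 ⊢
      have hb' := abs_le.1 hb
      have := hs.yrange i
      have := hs.st i
      have := hxy k ((b + (ys k + k), a + xs k), i) ⟨hm, by simp only; linarith,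
        by simp only; linarith⟩
        (by simp only [pieceX]; rw [abs_le]; constructor <;> linarith)
      simp only at this
      linarith
    have hPer : Period (P, 0) T₁ := by
      refine hp₁ P _ hD fun k a _ e2 => ?_
      simp only [Set.mem_ofPred_eq]
      rw [show a + (P, 0) + (xs k, ys k + k) = a + (xs k, ys k + k) + (P, 0) by abel]
      refine hper _ ?_
      simp only [Prod.snd_add]
      linarith [(abs_le.1 e2).1, hys k]
    obtain ⟨T₂, hT₂, hper₂⟩ : ∃ T', BoxTiling s t l r T' ∧ Periodic T' := by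
      rcases fault_cases hs.swap hT₁.swap hV with h | ⟨Q, -, -, hnoQ⟩
      · exact h
      · exfalso
        refine hnoQ P hP ?_
        rintro ⟨⟨b, a⟩, i⟩ ⟨hm, e1, e2⟩
        simp only [swapSet, Set.mem_preimage, Prod.swap_prod_mk] at hm
        simp only at e1 e2 ⊢
        have hm' : (a - P, b) ∈ T₁ := (hPer (a - P, b)).1 (by simpa using hm)
        have := hV ((b, a - P), i) ⟨hm', by simp only; linarith, by simp only; linarith⟩
        simp only at this
        linarith
    exact ⟨swapSet T₂, hT₂.swap, periodic_swap hper₂⟩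

end Vale.Agent.P043.Rect
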