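import Mathlib
import Vale.Agent.P043.Rect.Defs

/-!
Helper for P043: a map that keeps short coordinate sums and their order carries tilings to tilings.
-/

namespace Vale.Agent.P043.Rect

open Vale.Agent.P043.Rows

set_option linter.unusedSectionVars false

variable {ι : Type} [Fintype ι] {l r s t : ι → ℝ} {W H : ℝ}

/-- `ψ` moves short endpoint sums by at most `η` and keeps their signs. -/
structure GoodMap (l r s t : ι → ℝ) (ψ : ℝ →+ ℝ) (K : ℕ) (η : ℝ) : Prop where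
  near : ∀ γ, γ ∈ words l r K ∨ γ ∈ words s t K → |ψ γ - γ| ≤ η
  pos : ∀ γ, γ ∈ words l r K ∨ γ ∈ words s t K → 0 < γ → 0 < ψ γ

theorem GoodMap.swap {ψ : ℝ →+ ℝ} {K : ℕ} {η : ℝ} (h : GoodMap l r s t ψ K η) :
    GoodMap s t l r ψ K η :=
  ⟨fun γ hγ => h.near γ hγ.symm, fun γ hγ => h.pos γ hγ.symm⟩

theorem GoodMap.le_iff {ψ : ℝ →+ ℝ} {K : ℕ} {η : ℝ} (h : GoodMap l r s t ψ K η) {m n : ℕ}
    {a b : ℝ} (ha : a ∈ words l r m) (hb : b ∈ words l r n) (hK : m + n ≤ K) :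
    ψ a ≤ ψ b ↔ a ≤ b := by
  have hab := words_mono l r hK (sub_mem_words ha hb)
  have hba : b - a ∈ words l r K := by simpa using neg_mem_words hab
  constructor
  · intro hle
    by_contra hc
    have := h.pos _ (Or.inl hab) (by linarith [not_le.1 hc])
    rw [map_sub] at this
    linarith
  · intro hle
    rcases hle.eq_or_lt with rfl | hlt
    · exact le_rfl
    · have := h.pos _ (Or.inl hba) (by linarith)
      rw [map_sub] at this
      linarith

theorem GoodMap.eq_zero {ψ : ℝ →+ ℝ} {K : ℕ} {η : ℝ} (h : GoodMap l r s t ψ K η) {γ : ℝ}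
    (hγ : γ ∈ words l r K ∨ γ ∈ words s t K) (h0 : ψ γ = 0) : γ = 0 := by
  have hneg : -γ ∈ words l r K ∨ -γ ∈ words s t K := hγ.imp neg_mem_words neg_mem_words
  rcases lt_trichotomy γ 0 with h1 | h1 | h1
  · have := h.pos _ hneg (by linarith)
    rw [map_neg, h0] at this; linarith
  · exact h1
  · have := h.pos _ hγ h1
    rw [h0] at this; linarith

theorem mem_words_endpoint (hs : IsBoxShape l r s t W H) (i : ι) :
    l i ∈ words l r 1 ∧ r i ∈ words l r 1 := by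
  obtain ⟨i₀, h1, -⟩ := hs.xfull 0 le_rfl hs.wpos
  have e : l i₀ = 0 := le_antisymm h1 (hs.xrange i₀).1
  constructor
  · refine gens_subset_words l r ?_
    simp only [gens, Finset.mem_insert]
    exact Or.inr (Finset.mem_sub.2 ⟨l i, by simp, l i₀, by simp, by rw [e, sub_zero]⟩)
  · have := gens_subset_words l r (sub_mem_gens l r i i₀)
    rwa [e, sub_zero] at this

theorem exists_right (hs : IsBoxShape l r s t W H) : ∃ i, r i = W := by
  obtain ⟨i₀, -, -⟩ := hs.xfull 0 le_rfl hs.wpos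
  obtain ⟨i, -, hi⟩ := Finset.exists_max_image Finset.univ r ⟨i₀, Finset.mem_univ _⟩
  refine ⟨i, le_antisymm (hs.xrange i).2 (le_of_not_gt fun hlt => ?_)⟩
  obtain ⟨i', e1, e2⟩ := hs.xfull (r i) (by linarith [(hs.xrange i).1, hs.lt i]) hlt
  linarith [hi i' (Finset.mem_univ _)]

/-- The image of a shape under a good map is a shape. -/
theorem GoodMap.shape {ψ : ℝ →+ ℝ} {K : ℕ} {η : ℝ} (h : GoodMap l r s t ψ K η)
    (hs : IsBoxShape l r s t W H) (hK : 2 ≤ K) :
    IsBoxShape (fun i => ψ (l i)) (fun i => ψ (r i)) (fun i => ψ (s i)) (fun i => ψ (t i))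
      (ψ W) (ψ H) := by
  classical
  have key : ∀ {l r s t : ι → ℝ} {W H : ℝ}, IsBoxShape l r s t W H → GoodMap l r s t ψ K η →
      (∀ i, ψ (l i) < ψ (r i)) ∧ (∀ i, 0 ≤ ψ (l i) ∧ ψ (r i) ≤ ψ W) ∧ 0 < ψ W ∧
      (∀ i i', r i ≤ l i' → ψ (r i) ≤ ψ (l i')) ∧
      ∀ x, 0 ≤ x → x < ψ W → ∃ i, ψ (l i) ≤ x ∧ x < ψ (r i) := by
    intro l r s t W H hs h
    obtain ⟨iW, hiW⟩ := exists_right hs
    have hW : W ∈ words l r 1 := hiW ▸ (mem_words_endpoint hs iW).2
    have h0 : (0 : ℝ) ∈ words l r 1 := zero_mem_words l r 1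
    have hlt : ∀ i, ψ (l i) < ψ (r i) := fun i => not_le.1 fun hle =>
      absurd ((h.le_iff (mem_words_endpoint hs i).2 (mem_words_endpoint hs i).1 hK).1 hle)
        (not_le.2 (hs.lt i))
    have hr : ∀ i, 0 ≤ ψ (l i) ∧ ψ (r i) ≤ ψ W := fun i => by
      refine ⟨?_, (h.le_iff (mem_words_endpoint hs i).2 hW hK).2 (hs.xrange i).2⟩
      have := (h.le_iff h0 (mem_words_endpoint hs i).1 hK).2 (hs.xrange i).1
      rwa [map_zero] at this
    refine ⟨hlt, hr, ?_, fun i i' hle => (h.le_iff (mem_words_endpoint hs i).2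
      (mem_words_endpoint hs i').1 hK).2 hle, fun x hx0 hxW => ?_⟩
    · linarith [hlt iW, (hr iW).1, (hr iW).2]
    · obtain ⟨i₀, e1, -⟩ := hs.xfull 0 le_rfl hs.wpos
      let E := insert 0 (Finset.univ.image l ∪ Finset.univ.image r)
      obtain ⟨e, he, hmax⟩ := Finset.exists_max_image (E.filter fun e => ψ e ≤ x) id
        ⟨0, Finset.mem_filter.2 ⟨Finset.mem_insert_self _ _, by rw [map_zero]; exact hx0⟩⟩
      obtain ⟨heE, hex⟩ := Finset.mem_filter.1 he
      have hew : e ∈ words l r 1 ∧ 0 ≤ e := by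
        simp only [E, Finset.mem_insert, Finset.mem_union, Finset.mem_image, Finset.mem_univ,
          true_and] at heE
        rcases heE with rfl | ⟨i, rfl⟩ | ⟨i, rfl⟩
        · exact ⟨h0, le_rfl⟩
        · exact ⟨(mem_words_endpoint hs i).1, (hs.xrange i).1⟩
        · exact ⟨(mem_words_endpoint hs i).2, by linarith [(hs.xrange i).1, hs.lt i]⟩
      have heW : e < W := not_le.1 fun hle => by
        linarith [(h.le_iff hW hew.1 hK).2 hle]
      obtain ⟨i, h1, h2⟩ := hs.xfull e hew.2 heW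
      refine ⟨i, le_trans ((h.le_iff (mem_words_endpoint hs i).1 hew.1 hK).2 h1) hex,
        not_le.1 fun hle => ?_⟩
      have := hmax (r i) (Finset.mem_filter.2 ⟨by simp [E], hle⟩)
      simp only [id] at this
      linarith
  obtain ⟨a1, a2, a3, a4, a5⟩ := key hs h
  obtain ⟨b1, b2, b3, b4, b5⟩ := key hs.swap h.swap
  exact ⟨a1, b1, fun i i' hne => (hs.disjoint i i' hne).imp (a4 i i')
    (Or.imp (a4 i' i) (Or.imp (b4 i i') (b4 i' i))), a2, b2, a3, b3, a5, b5⟩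

/-- Replace a threshold in one model by one in the other with the same pattern. -/
theorem exists_cut (F : Finset ℝ) (f g : ℝ → ℝ)
    (hf : ∀ a ∈ F, ∀ b ∈ F, (f a ≤ f b ↔ a ≤ b)) (hg : ∀ a ∈ F, ∀ b ∈ F, (g a ≤ g b ↔ a ≤ b))
    {c : ℝ} (hc : ∀ a ∈ F, |f a - g a| ≤ c) (hc0 : 0 ≤ c) (d : ℝ) :
    ∃ x, |x - d| ≤ c + 1 ∧ ∀ a ∈ F, (f a ≤ x ↔ g a ≤ d) := by
  classical
  by_cases h1 : ∃ a ∈ F, g a ≤ d ∧ d < f a
  · obtain ⟨a, ha, hga, hfa⟩ := h1
    obtain ⟨m, hm, hmax⟩ := Finset.exists_max_image (F.filter fun a => g a ≤ d) id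
      ⟨a, Finset.mem_filter.2 ⟨ha, hga⟩⟩
    obtain ⟨hmF, hmd⟩ := Finset.mem_filter.1 hm
    refine ⟨f m, ?_, fun b hb => ⟨fun hle => ?_, fun hle => ?_⟩⟩
    · have e1 := (hf a ha m hmF).2 (hmax a (Finset.mem_filter.2 ⟨ha, hga⟩))
      have e2 := abs_le.1 (hc m hmF)
      rw [abs_le]; constructor <;> linarith
    · exact le_trans ((hg b hb m hmF).2 ((hf b hb m hmF).1 hle)) hmd
    · exact (hf b hb m hmF).2 (hmax b (Finset.mem_filter.2 ⟨hb, hle⟩))
  by_cases h2 : ∃ a ∈ F, d < g a ∧ f a ≤ d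
  · obtain ⟨a, ha, hga, hfa⟩ := h2
    obtain ⟨n, hn, hmin⟩ := Finset.exists_min_image (F.filter fun a => d < g a) id
      ⟨a, Finset.mem_filter.2 ⟨ha, hga⟩⟩
    obtain ⟨hnF, hnd⟩ := Finset.mem_filter.1 hn
    set S := insert (f n - 1) ((F.filter fun a => g a ≤ d).image f)
    have hlow : ∀ x ∈ S, x < f n := by
      intro x hx
      simp only [S, Finset.mem_insert, Finset.mem_image, Finset.mem_filter] at hx
      rcases hx with rfl | ⟨b, ⟨hb, hgb⟩, rfl⟩
      · linarith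
      · exact not_le.1 fun hle => by linarith [(hg n hnF b hb).2 ((hf n hnF b hb).1 hle)]
    have hS : S.Nonempty := Finset.insert_nonempty _ _
    refine ⟨S.max' hS, ?_, fun b hb => ⟨fun hle => ?_, fun hle => ?_⟩⟩
    · have e1 := Finset.le_max' S (f n - 1) (Finset.mem_insert_self _ _)
      have e2 := hlow _ (Finset.max'_mem _ hS)
      have e3 := (hf n hnF a ha).2 (hmin a (Finset.mem_filter.2 ⟨ha, hga⟩))
      have e4 := abs_le.1 (hc n hnF)
      rw [abs_le]; constructor <;> linarith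
    · by_contra hgb
      have := (hf n hnF b hb).2 (hmin b (Finset.mem_filter.2 ⟨hb, not_le.1 hgb⟩))
      linarith [hlow _ (Finset.max'_mem _ hS)]
    · exact Finset.le_max' S (f b) (Finset.mem_insert_of_mem
        (Finset.mem_image_of_mem _ (Finset.mem_filter.2 ⟨hb, hle⟩)))
  · push Not at h1 h2
    exact ⟨d, by simp; linarith, fun b hb => ⟨fun hle => not_lt.1 fun hlt =>
      absurd (h2 b hb hlt) (not_lt.2 hle), fun hle => h1 b hb hle⟩⟩

/-- The transfer. -/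
theorem transfer (hs : IsBoxShape l r s t W H) {ψ ψ' : ℝ →+ ℝ} {K K₀ : ℕ} {η : ℝ}
    (h : GoodMap l r s t ψ K₀ η) (h' : GoodMap l r s t ψ' K₀ η) (hη : η ≤ 1)
    (hK : 2 * K + 2 ≤ K₀)
    {R : ℝ} (hR : 20 * (W + H + 4) ≤ R) {T : Set (ℝ × ℝ)}
    (hT : BoxTiling (fun i => ψ (l i)) (fun i => ψ (r i)) (fun i => ψ (s i)) (fun i => ψ (t i)) T)
    (τ : ℝ × ℝ → ℝ × ℝ)
    (hτ : ∀ a ∈ T, ∀ b ∈ T, |b.1 - a.1| ≤ R → |b.2 - a.2| ≤ R →
      ∃ γ ∈ words l r K, ∃ γ' ∈ words s t K, ψ γ = b.1 - a.1 ∧ ψ γ' = b.2 - a.2 ∧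
        ψ' γ = (τ b).1 - (τ a).1 ∧ ψ' γ' = (τ b).2 - (τ a).2) :
    BoxTiling (fun i => ψ' (l i)) (fun i => ψ' (r i)) (fun i => ψ' (s i)) (fun i => ψ' (t i))
      (τ '' T) := by
  have hS := h.shape hs (by omega)
  have hS' := h'.shape hs (by omega)
  set B := W + H + 4
  have hW := hs.wpos
  have hH := hs.hpos
  obtain ⟨iW, hiW⟩ := exists_right hs
  obtain ⟨iH, hiH⟩ := exists_right hs.swap
  have hWw : W ∈ words l r K₀ :=
    words_mono l r (by omega) (hiW ▸ (mem_words_endpoint hs iW).2)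
  have hHw : H ∈ words s t K₀ :=
    words_mono s t (by omega) (hiH ▸ (mem_words_endpoint hs.swap iH).2)
  have w1 := abs_le.1 (h.near W (Or.inl hWw))
  have w2 := abs_le.1 (h'.near W (Or.inl hWw))
  have h1' := abs_le.1 (h.near H (Or.inr hHw))
  have h2' := abs_le.1 (h'.near H (Or.inr hHw))
  -- owners
  have hown : ∀ z : ℝ × ℝ, ∃ a ∈ T, |a.1 - z.1| ≤ B ∧ |a.2 - z.2| ≤ B := by
    intro z
    obtain ⟨⟨a, i⟩, ⟨ha, e1, e2⟩, -⟩ := hT z
    simp only at ha e1 e2
    have := hS.xrange i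
    have := hS.yrange i
    refine ⟨a, ha, ?_, ?_⟩ <;> rw [abs_le] <;> simp only [B] <;> constructor <;> linarith
  have hstep : ∀ a ∈ T, ∀ b ∈ T, |b.1 - a.1| ≤ R → |b.2 - a.2| ≤ R →
      |((τ b).1 - (τ a).1) - (b.1 - a.1)| ≤ 2 ∧ |((τ b).2 - (τ a).2) - (b.2 - a.2)| ≤ 2 := by
    intro a ha b hb h1 h2
    obtain ⟨γ, hγ, γ', hγ', e1, e2, e3, e4⟩ := hτ a ha b hb h1 h2
    have g1 := abs_le.1 (h.near γ (Or.inl (words_mono l r (by omega) hγ)))
    have g2 := abs_le.1 (h'.near γ (Or.inl (words_mono l r (by omega) hγ)))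
    have g3 := abs_le.1 (h.near γ' (Or.inr (words_mono s t (by omega) hγ')))
    have g4 := abs_le.1 (h'.near γ' (Or.inr (words_mono s t (by omega) hγ')))
    constructor <;> rw [abs_le] <;> constructor <;> linarith
  let clip : ℝ → ℝ := fun d => max (-(R / 2)) (min (R / 2) d)
  have hclip : ∀ d e, |e - clip d| ≤ B + 2 → |e| ≤ R ∧
      (|d - e| ≤ R / 2 ∨ |d - e| + R / 4 ≤ |d|) := by
    intro d e he
    have he' := abs_le.1 he
    have hB : B + 2 ≤ R / 8 := by simp only [B] at *; linarith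
    simp only [clip] at he'
    rcases le_total d (R / 2) with c1 | c1
    · rcases le_total (-(R / 2)) d with c2 | c2
      · rw [min_eq_right c1, max_eq_right c2] at he'
        exact ⟨by rw [abs_le]; constructor <;> linarith,
          Or.inl (by rw [abs_le]; constructor <;> linarith)⟩
      · rw [min_eq_right c1, max_eq_left c2] at he'
        refine ⟨by rw [abs_le]; constructor <;> linarith, ?_⟩
        rcases le_total 0 (d - e) with c3 | c3
        · exact Or.inl (by rw [abs_of_nonneg c3]; linarith)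
        · exact Or.inr (by rw [abs_of_nonpos c3, abs_of_nonpos (by linarith)]; linarith)
    · rw [min_eq_left c1, max_eq_right (by linarith)] at he'
      refine ⟨by rw [abs_le]; constructor <;> linarith, ?_⟩
      rcases le_total 0 (d - e) with c3 | c3
      · exact Or.inr (by rw [abs_of_nonneg c3, abs_of_nonneg (by linarith)]; linarith)
      · exact Or.inl (by rw [abs_of_nonpos c3]; linarith)
  -- distances are roughly kept
  have hdist : ∀ n : ℕ, ∀ a ∈ T, ∀ b ∈ T, |b.1 - a.1| ≤ R / 2 + n * (R / 4) →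
      |b.2 - a.2| ≤ R / 2 + n * (R / 4) →
      |((τ b).1 - (τ a).1) - (b.1 - a.1)| ≤ 2 * (n + 1) ∧
      |((τ b).2 - (τ a).2) - (b.2 - a.2)| ≤ 2 * (n + 1) := by
    intro n
    induction n with
    | zero =>
      intro a ha b hb h1 h2
      simp only [Nat.cast_zero, zero_mul, add_zero] at h1 h2
      simpa using hstep a ha b hb (by linarith) (by linarith)
    | succ n ih =>
      intro a ha b hb h1 h2
      push_cast at h1 h2 ⊢
      obtain ⟨c, hc, c1, c2⟩ := hown (a.1 + clip (b.1 - a.1), a.2 + clip (b.2 - a.2))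
      have k1 := hclip (b.1 - a.1) (c.1 - a.1) (by
        rw [show c.1 - a.1 - clip (b.1 - a.1) = c.1 - (a.1 + clip (b.1 - a.1)) by ring]
        linarith)
      have k2 := hclip (b.2 - a.2) (c.2 - a.2) (by
        rw [show c.2 - a.2 - clip (b.2 - a.2) = c.2 - (a.2 + clip (b.2 - a.2)) by ring]
        linarith)
      rw [sub_sub_sub_cancel_right] at k1 k2
      have hn : (0 : ℝ) ≤ n * (R / 4) := by
        have : 0 ≤ R := by linarith [abs_nonneg (b.1 - c.1)]
        positivity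
      obtain ⟨i1, i2⟩ := ih c hc b hb
        (by rcases k1.2 with k | k <;> linarith) (by rcases k2.2 with k | k <;> linarith)
      obtain ⟨j1, j2⟩ := hstep a ha c hc k1.1 k2.1
      rw [abs_le] at i1 i2 j1 j2 ⊢
      rw [abs_le]
      refine ⟨⟨?_, ?_⟩, ?_, ?_⟩ <;> linarith
  intro Z
  -- a tile sent near the point
  obtain ⟨a₀, ha₀, hd1, hd2⟩ : ∃ a₀ ∈ T, |Z.1 - (τ a₀).1| ≤ R / 2 ∧ |Z.2 - (τ a₀).2| ≤ R / 2 := by
    obtain ⟨a₁, ha₁, -⟩ := hown Z
    have hRpos : 0 < R := by linarith [abs_nonneg (Z.1 - Z.1)]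
    obtain ⟨m, hm⟩ : ∃ m : ℕ,
        |Z.1 - (τ a₁).1| + |Z.2 - (τ a₁).2| ≤ R / 2 + m * (R / 4) := by
      obtain ⟨m, hm⟩ := exists_nat_ge ((|Z.1 - (τ a₁).1| + |Z.2 - (τ a₁).2|) / (R / 4))
      rw [div_le_iff₀ (by linarith)] at hm
      exact ⟨m, by linarith⟩
    have main : ∀ m : ℕ, ∀ a ∈ T, |Z.1 - (τ a).1| ≤ R / 2 + m * (R / 4) →
        |Z.2 - (τ a).2| ≤ R / 2 + m * (R / 4) →
        ∃ a₀ ∈ T, |Z.1 - (τ a₀).1| ≤ R / 2 ∧ |Z.2 - (τ a₀).2| ≤ R / 2 := by
      intro m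
      induction m with
      | zero => intro a ha h1 h2; exact ⟨a, ha, by simpa using h1, by simpa using h2⟩
      | succ m ih =>
        intro a ha h1 h2
        push_cast at h1 h2
        obtain ⟨b, hb, b1, b2⟩ :=
          hown (a.1 + clip (Z.1 - (τ a).1), a.2 + clip (Z.2 - (τ a).2))
        have b1' := abs_le.1 b1
        have b2' := abs_le.1 b2
        simp only at b1' b2'
        have hcl : ∀ d, |clip d| ≤ R / 2 := fun d => by
          simp only [clip]; rw [abs_le]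
          exact ⟨le_max_left _ _, max_le (by linarith) (min_le_left _ _)⟩
        have hc1 := abs_le.1 (hcl (Z.1 - (τ a).1))
        have hc2 := abs_le.1 (hcl (Z.2 - (τ a).2))
        have hB : B + 2 ≤ R / 8 := by simp only [B] at *; linarith
        obtain ⟨j1, j2⟩ := hstep a ha b hb (by rw [abs_le]; constructor <;> linarith)
          (by rw [abs_le]; constructor <;> linarith)
        have j1' := abs_le.1 j1
        have j2' := abs_le.1 j2
        have k1 := hclip (Z.1 - (τ a).1) ((τ b).1 - (τ a).1)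
          (by rw [abs_le]; constructor <;> linarith)
        have k2 := hclip (Z.2 - (τ a).2) ((τ b).2 - (τ a).2)
          (by rw [abs_le]; constructor <;> linarith)
        rw [sub_sub_sub_cancel_right] at k1 k2
        have hn : (0 : ℝ) ≤ m * (R / 4) := by positivity
        exact ih b hb (by rcases k1.2 with k | k <;> linarith)
          (by rcases k2.2 with k | k <;> linarith)
    exact main m a₁ ha₁ (by linarith [abs_nonneg (Z.2 - (τ a₁).2)])
      (by linarith [abs_nonneg (Z.1 - (τ a₁).1)])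
  -- the matching point
  have cut : ∀ {l r s t : ι → ℝ}, GoodMap l r s t ψ K₀ η → GoodMap l r s t ψ' K₀ η → ∀ d,
      ∃ x, |x - d| ≤ 3 ∧ ∀ γ ∈ words l r (K + 1), (ψ γ ≤ x ↔ ψ' γ ≤ d) := by
    intro l r s t g g' d
    have hη0 : 0 ≤ η := (abs_nonneg _).trans (g.near 0 (Or.inl (zero_mem_words l r K₀)))
    obtain ⟨x, hx, hx'⟩ := exists_cut (words l r (K + 1)) ψ ψ'
      (fun a ha b hb => g.le_iff ha hb (by omega)) (fun a ha b hb => g'.le_iff ha hb (by omega))
      (c := 2) (fun a ha => by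
        have g1 := abs_le.1 (g.near a (Or.inl (words_mono l r (by omega) ha)))
        have g2 := abs_le.1 (g'.near a (Or.inl (words_mono l r (by omega) ha)))
        rw [abs_le]; constructor <;> linarith) (by norm_num) d
    exact ⟨x, by linarith, hx'⟩
  obtain ⟨x₀, hx₀, hX⟩ := cut h h' (Z.1 - (τ a₀).1)
  obtain ⟨y₀, hy₀, hY⟩ := cut h.swap h'.swap (Z.2 - (τ a₀).2)
  -- pieces of tiles near `a₀` have the same pattern at the two points
  have hpat : ∀ a ∈ T, |a.1 - a₀.1| ≤ R → |a.2 - a₀.2| ≤ R → ∀ i,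
      ((((τ a).1 + ψ' (l i) ≤ Z.1 ∧ Z.1 < (τ a).1 + ψ' (r i)) ∧
        ((τ a).2 + ψ' (s i) ≤ Z.2 ∧ Z.2 < (τ a).2 + ψ' (t i))) ↔
      ((a.1 + ψ (l i) ≤ a₀.1 + x₀ ∧ a₀.1 + x₀ < a.1 + ψ (r i)) ∧
        (a.2 + ψ (s i) ≤ a₀.2 + y₀ ∧ a₀.2 + y₀ < a.2 + ψ (t i)))) := by
    intro a ha d1 d2 i
    obtain ⟨γ, hγ, γ', hγ', e1, e2, e3, e4⟩ := hτ a₀ ha₀ a ha d1 d2
    have p1 := hX (γ + l i) (add_mem_words hγ (mem_words_endpoint hs i).1)
    have p2 := hX (γ + r i) (add_mem_words hγ (mem_words_endpoint hs i).2)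
    have p3 := hY (γ' + s i) (add_mem_words hγ' (mem_words_endpoint hs.swap i).1)
    have p4 := hY (γ' + t i) (add_mem_words hγ' (mem_words_endpoint hs.swap i).2)
    rw [map_add, map_add, e1, e3] at p1 p2
    rw [map_add, map_add, e2, e4] at p3 p4
    constructor
    · rintro ⟨⟨q1, q2⟩, q3, q4⟩
      refine ⟨⟨by linarith [p1.2 (by linarith)], ?_⟩, by linarith [p3.2 (by linarith)], ?_⟩
      · by_contra hc; linarith [p2.1 (by linarith [not_lt.1 hc])]
      · by_contra hc; linarith [p4.1 (by linarith [not_lt.1 hc])]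
    · rintro ⟨⟨q1, q2⟩, q3, q4⟩
      refine ⟨⟨by linarith [p1.1 (by linarith)], ?_⟩, by linarith [p3.1 (by linarith)], ?_⟩
      · by_contra hc; linarith [p2.2 (by linarith [not_lt.1 hc])]
      · by_contra hc; linarith [p4.2 (by linarith [not_lt.1 hc])]
  obtain ⟨⟨a, i⟩, ⟨ha, e1, e2⟩, huniq⟩ := hT (a₀.1 + x₀, a₀.2 + y₀)
  simp only at ha e1 e2
  have hd1' := abs_le.1 hd1
  have hd2' := abs_le.1 hd2
  have hx₀' := abs_le.1 hx₀
  have hy₀' := abs_le.1 hy₀
  have hBR : B + 10 ≤ R / 4 := by simp only [B] at *; linarith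
  have := hS.xrange i
  have := hS.yrange i
  refine ⟨(τ a, i), ⟨⟨a, ha, rfl⟩, (hpat a ha (by rw [abs_le]; simp only [B] at *; constructor <;> linarith)
    (by rw [abs_le]; simp only [B] at *; constructor <;> linarith) i).2 ⟨e1, e2⟩⟩, ?_⟩
  rintro ⟨_, i'⟩ ⟨⟨a', ha', rfl⟩, g1, g2⟩
  simp only at g1 g2
  have := hS'.xrange i'
  have := hS'.yrange i'
  obtain ⟨n, hn, hn'⟩ : ∃ n : ℕ, |a'.1 - a₀.1| + |a'.2 - a₀.2| ≤ R / 2 + n * (R / 4) ∧
      (n : ℝ) ≤ (|a'.1 - a₀.1| + |a'.2 - a₀.2|) / (R / 4) + 1 := by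
    have hRpos : 0 < R / 4 := by linarith [abs_nonneg (Z.1 - (τ a₀).1)]
    refine ⟨⌈(|a'.1 - a₀.1| + |a'.2 - a₀.2|) / (R / 4)⌉₊, ?_, (Nat.ceil_lt_add_one (by positivity)).le⟩
    have := Nat.le_ceil ((|a'.1 - a₀.1| + |a'.2 - a₀.2|) / (R / 4))
    rw [div_le_iff₀ hRpos] at this
    linarith
  obtain ⟨u1, u2⟩ := hdist n a₀ ha₀ a' ha' (by linarith [abs_nonneg (a'.2 - a₀.2)])
    (by linarith [abs_nonneg (a'.1 - a₀.1)])
  set S := |a'.1 - a₀.1| + |a'.2 - a₀.2| with hSdef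
  have hS0 : 0 ≤ S := by positivity
  have hn2 : 2 * ((n : ℝ) + 1) ≤ S / 8 + 4 := by
    have h80 : 80 ≤ R := by simp only [B] at *; linarith
    have : S / (R / 4) ≤ S / 20 := by
      apply div_le_div_of_nonneg_left hS0 (by norm_num) (by linarith)
    linarith
  have v1 : |a'.1 - a₀.1| ≤ R / 2 + B + S / 8 + 4 := by
    have u1' := abs_le.1 u1
    rw [abs_le]; simp only [B] at *; constructor <;> linarith
  have v2 : |a'.2 - a₀.2| ≤ R / 2 + B + S / 8 + 4 := by
    have u2' := abs_le.1 u2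
    rw [abs_le]; simp only [B] at *; constructor <;> linarith
  have key := huniq (a', i') ⟨ha', (hpat a' ha' (by linarith) (by linarith) i').1 ⟨g1, g2⟩⟩
  simp only [Prod.mk.injEq] at key ⊢
  exact ⟨by rw [key.1], key.2⟩

end Vale.Agent.P043.Rect
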