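import Mathlib
import Vale.Agent.P043.Rect.Transfer
import Vale.Agent.P043.Rows.Plane
import Vale.Agent.P043.Rows.Lift

/-!
Helper for P043: the integer model of a tile made of boxes, its periodic tiling, and the lift of a
periodic tiling back to the real tile.
-/

namespace Vale.Agent.P043.Rect

open Vale.Agent.P043.Rows

set_option linter.unusedSectionVars false

variable {ι : Type} [Fintype ι] {l r s t : ι → ℝ} {W H : ℝ}

/-- `x ↦ Φ x / M`. -/
noncomputable def scaleHom (Φ : ℝ →+ ℚ) (M : ℕ) : ℝ →+ ℝ where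
  toFun x := (Φ x : ℝ) / M
  map_zero' := by simp
  map_add' x y := by simp [add_div]

theorem scaleHom_apply (Φ : ℝ →+ ℚ) (M : ℕ) (x : ℝ) : scaleHom Φ M x = (Φ x : ℝ) / M := rfl

theorem exists_gap (F : Finset ℝ) : ∃ μ > 0, ∀ γ ∈ F, γ ≠ 0 → μ ≤ |γ| := by
  classical
  rcases (F.filter (· ≠ 0)).eq_empty_or_nonempty with he | hne
  · exact ⟨1, one_pos, fun γ hγ h0 => absurd (a := γ ∈ F.filter (· ≠ 0))
      (Finset.mem_filter.2 ⟨hγ, h0⟩) (by simp [he])⟩
  · obtain ⟨γ₀, hγ₀, hmin⟩ := Finset.exists_min_image _ (fun γ => |γ|) hne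
    exact ⟨|γ₀|, abs_pos.2 (Finset.mem_filter.1 hγ₀).2,
      fun γ hγ h0 => hmin γ (Finset.mem_filter.2 ⟨hγ, h0⟩)⟩

theorem words_approx {p q : ι → ℝ} {f : ℝ →+ ℝ} {ε : ℝ} (hε : 0 ≤ ε)
    (hp : ∀ i, |f (p i) - p i| ≤ ε) (hq : ∀ i, |f (q i) - q i| ≤ ε) :
    ∀ n, ∀ γ ∈ words p q n, |f γ - γ| ≤ n * (2 * ε) := by
  classical
  have hg : ∀ g ∈ gens p q, |f g - g| ≤ 2 * ε := by
    intro g hg
    simp only [gens, Finset.mem_insert] at hg
    rcases hg with rfl | hg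
    · simpa using hε
    · obtain ⟨a, ha, c, hc, rfl⟩ := Finset.mem_sub.1 hg
      have key : ∀ x ∈ Finset.univ.image p ∪ Finset.univ.image q, |f x - x| ≤ ε := by
        intro x hx
        simp only [Finset.mem_union, Finset.mem_image, Finset.mem_univ, true_and] at hx
        rcases hx with ⟨i, rfl⟩ | ⟨i, rfl⟩
        exacts [hp i, hq i]
      have h1 := abs_le.1 (key a ha)
      have h2 := abs_le.1 (key c hc)
      rw [map_sub, abs_le]
      constructor <;> linarith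
  intro n
  induction n with
  | zero => simp [words]
  | succ n ih =>
    intro γ hγ
    obtain ⟨a, ha, g, hg', rfl⟩ := Finset.mem_add.1 hγ
    have h1 := abs_le.1 (ih a ha)
    have h2 := abs_le.1 (hg g hg')
    rw [map_add, abs_le]
    push_cast
    constructor <;> linarith

theorem words_int {p q : ι → ℝ} {Φ : ℝ →+ ℚ} (hp : ∀ i, ∃ z : ℤ, Φ (p i) = z)
    (hq : ∀ i, ∃ z : ℤ, Φ (q i) = z) : ∀ n, ∀ γ ∈ words p q n, ∃ z : ℤ, Φ γ = z := by
  classical
  have key : ∀ x ∈ Finset.univ.image p ∪ Finset.univ.image q, ∃ z : ℤ, Φ x = z := by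
    intro x hx
    simp only [Finset.mem_union, Finset.mem_image, Finset.mem_univ, true_and] at hx
    rcases hx with ⟨i, rfl⟩ | ⟨i, rfl⟩
    exacts [hp i, hq i]
  intro n
  induction n with
  | zero => intro γ hγ; exact ⟨0, by simp_all [words]⟩
  | succ n ih =>
    intro γ hγ
    obtain ⟨a, ha, g, hg, rfl⟩ := Finset.mem_add.1 hγ
    obtain ⟨za, hza⟩ := ih a ha
    simp only [gens, Finset.mem_insert] at hg
    rcases hg with rfl | hg
    · exact ⟨za, by rw [add_zero, hza]⟩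
    · obtain ⟨x, hx, y, hy, rfl⟩ := Finset.mem_sub.1 hg
      obtain ⟨zx, hzx⟩ := key x hx
      obtain ⟨zy, hzy⟩ := key y hy
      exact ⟨za + (zx - zy), by rw [map_add, map_sub, hza, hzx, hzy]; push_cast; ring⟩

theorem exists_goodMap (_hs : IsBoxShape l r s t W H) (K : ℕ) {η : ℝ} (hη : 0 < η) :
    ∃ (Φ : ℝ →+ ℚ) (M : ℕ), 0 < M ∧ (∀ i, (∃ z : ℤ, Φ (l i) = z) ∧ (∃ z : ℤ, Φ (r i) = z) ∧
      (∃ z : ℤ, Φ (s i) = z) ∧ ∃ z : ℤ, Φ (t i) = z) ∧
      GoodMap l r s t (scaleHom Φ M) K η := by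
  classical
  obtain ⟨μ, hμ0, hμ⟩ := exists_gap (words l r K ∪ words s t K)
  set ε := min (η / (2 * (K + 1))) (μ / (4 * (K + 1))) with hε
  have hε0 : 0 < ε := lt_min (by positivity) (by positivity)
  obtain ⟨Φ, M, hM, hΦ⟩ := exists_approx (Finset.univ.image l ∪ Finset.univ.image r ∪
    Finset.univ.image s ∪ Finset.univ.image t) hε0
  have hl := fun i => hΦ (l i) (by simp)
  have hr := fun i => hΦ (r i) (by simp)
  have hsl := fun i => hΦ (s i) (by simp)
  have ht := fun i => hΦ (t i) (by simp)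
  have hw : ∀ γ, γ ∈ words l r K ∨ γ ∈ words s t K →
      |scaleHom Φ M γ - γ| ≤ K * (2 * ε) := by
    rintro γ (hγ | hγ)
    · exact words_approx hε0.le (fun i => (hl i).2) (fun i => (hr i).2) K γ hγ
    · exact words_approx hε0.le (fun i => (hsl i).2) (fun i => (ht i).2) K γ hγ
  have h1 : (K : ℝ) * (2 * ε) ≤ η := by
    have h : ε ≤ η / (2 * (K + 1)) := min_le_left _ _
    rw [le_div_iff₀ (by positivity)] at h
    nlinarith
  have h2 : (K : ℝ) * (2 * ε) ≤ μ / 2 := by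
    have h : ε ≤ μ / (4 * (K + 1)) := min_le_right _ _
    rw [le_div_iff₀ (by positivity)] at h
    nlinarith
  refine ⟨Φ, M, hM, fun i => ⟨(hl i).1, (hr i).1, (hsl i).1, (ht i).1⟩,
    ⟨fun γ hγ => (hw γ hγ).trans h1, fun γ hγ hpos => ?_⟩⟩
  have h3 : μ ≤ γ := by
    have := hμ γ (Finset.mem_union.2 hγ) hpos.ne'
    rwa [abs_of_pos hpos] at this
  linarith [(abs_le.1 (hw γ hγ)).1]

theorem goodMap_id {K : ℕ} {η : ℝ} (hη : 0 ≤ η) : GoodMap l r s t (AddMonoidHom.id ℝ) K η :=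
  ⟨fun γ _ => by simpa using hη, fun γ _ h => by simpa using h⟩

theorem GoodMap.eta_nonneg {ψ : ℝ →+ ℝ} {K : ℕ} {η : ℝ} (h : GoodMap l r s t ψ K η) : 0 ≤ η :=
  (abs_nonneg _).trans (h.near 0 (Or.inl (zero_mem_words l r K)))

theorem Period.nat {v : ℝ × ℝ} {T : Set (ℝ × ℝ)} (h : Period v T) : ∀ n : ℕ, Period (n • v) T
  | 0 => fun a => by simp
  | n + 1 => fun a => by rw [succ_nsmul, ← add_assoc, h, Period.nat h n]

/-- The cells of integer boxes. -/
noncomputable def boxCells (lZ rZ sZ tZ : ι → ℤ) : Finset (ℤ × ℤ) :=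
  Finset.univ.biUnion fun i => Finset.Ico (lZ i) (rZ i) ×ˢ Finset.Ico (sZ i) (tZ i)

theorem mem_boxCells {lZ rZ sZ tZ : ι → ℤ} {f : ℤ × ℤ} : f ∈ boxCells lZ rZ sZ tZ ↔
    ∃ i, (lZ i ≤ f.1 ∧ f.1 < rZ i) ∧ sZ i ≤ f.2 ∧ f.2 < tZ i := by
  simp [boxCells]

theorem grid_le_iff {M : ℝ} (hM : 0 < M) (n p : ℤ) (z : ℝ) :
    (n : ℝ) / M + (p : ℝ) / M ≤ z ↔ p ≤ ⌊z * M⌋ - n := by
  rw [← add_div, div_le_iff₀ hM, le_sub_iff_add_le, Int.le_floor]
  push_cast
  constructor <;> intro h <;> linarith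

theorem grid_lt_iff {M : ℝ} (hM : 0 < M) (n p : ℤ) (z : ℝ) :
    z < (n : ℝ) / M + (p : ℝ) / M ↔ ⌊z * M⌋ - n < p := by
  rw [← not_le, grid_le_iff hM, not_le]

theorem exists_periodic_model (hs : IsBoxShape l r s t W H) {Φ : ℝ →+ ℚ} {M : ℕ} (hM : 0 < M)
    (hint : ∀ i, (∃ z : ℤ, Φ (l i) = z) ∧ (∃ z : ℤ, Φ (r i) = z) ∧ (∃ z : ℤ, Φ (s i) = z) ∧
      ∃ z : ℤ, Φ (t i) = z)
    {K₀ : ℕ} {η : ℝ} (hgood : GoodMap l r s t (scaleHom Φ M) K₀ η) (hη : η ≤ 1)
    {T : Set (ℝ × ℝ)} (hT : BoxTiling l r s t T) {R : ℝ} (hR : 20 * (W + H + 4) ≤ R) {K : ℕ}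
    (hK : 2 * K + 2 ≤ K₀) (hnear : ∀ Y, Near l r s t (AddMonoidHom.id ℝ) T R K Y) :
    ∃ (T' : Set (ℝ × ℝ)) (P : ℤ), 0 < P ∧
      BoxTiling (fun i => scaleHom Φ M (l i)) (fun i => scaleHom Φ M (r i))
        (fun i => scaleHom Φ M (s i)) (fun i => scaleHom Φ M (t i)) T' ∧
      Period ((P : ℝ), 0) T' ∧ Period (0, (P : ℝ)) T' := by
  classical
  have hMr : (0 : ℝ) < M := by exact_mod_cast hM
  have hS := hgood.shape hs (by omega)
  choose lZ hlZ using fun i => (hint i).1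
  choose rZ hrZ using fun i => (hint i).2.1
  choose sZ hsZ using fun i => (hint i).2.2.1
  choose tZ htZ using fun i => (hint i).2.2.2
  let fl : ℝ × ℝ → ℤ × ℤ := fun a => (⌊Φ a.1⌋, ⌊Φ a.2⌋)
  let emb : ℤ × ℤ → ℝ × ℝ := fun n => ((n.1 : ℝ) / M, (n.2 : ℝ) / M)
  have el : ∀ i, scaleHom Φ M (l i) = (lZ i : ℝ) / M := fun i => by
    rw [scaleHom_apply, hlZ, Rat.cast_intCast]
  have er : ∀ i, scaleHom Φ M (r i) = (rZ i : ℝ) / M := fun i => by
    rw [scaleHom_apply, hrZ, Rat.cast_intCast]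
  have es : ∀ i, scaleHom Φ M (s i) = (sZ i : ℝ) / M := fun i => by
    rw [scaleHom_apply, hsZ, Rat.cast_intCast]
  have et : ∀ i, scaleHom Φ M (t i) = (tZ i : ℝ) / M := fun i => by
    rw [scaleHom_apply, htZ, Rat.cast_intCast]
  -- membership in a box, in cells
  have hbox : ∀ (n : ℤ × ℤ) (i : ι) (z : ℝ × ℝ),
      ((emb n).1 + scaleHom Φ M (l i) ≤ z.1 ∧ z.1 < (emb n).1 + scaleHom Φ M (r i)) ∧
        ((emb n).2 + scaleHom Φ M (s i) ≤ z.2 ∧ z.2 < (emb n).2 + scaleHom Φ M (t i)) ↔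
      (lZ i ≤ ⌊z.1 * M⌋ - n.1 ∧ ⌊z.1 * M⌋ - n.1 < rZ i) ∧
        (sZ i ≤ ⌊z.2 * M⌋ - n.2 ∧ ⌊z.2 * M⌋ - n.2 < tZ i) := by
    intro n i z
    simp only [emb, el, er, es, et, grid_le_iff hMr, grid_lt_iff hMr]
  have hT1 : BoxTiling (fun i => scaleHom Φ M (l i)) (fun i => scaleHom Φ M (r i))
      (fun i => scaleHom Φ M (s i)) (fun i => scaleHom Φ M (t i))
      ((fun a => emb (fl a)) '' T) := by
    refine transfer hs (ψ := AddMonoidHom.id ℝ) (ψ' := scaleHom Φ M) (K := K) (K₀ := K₀)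
      (goodMap_id hgood.eta_nonneg) hgood hη hK hR (T := T) hT _ ?_
    intro a ha b hb h1 h2
    obtain ⟨γ, hγ, γ', hγ', e1, e2⟩ :=
      hnear (min a.2 b.2) a ha b hb (min_le_left _ _) (min_le_right _ _) h1 h2
    refine ⟨γ, hγ, γ', hγ', e1, e2, ?_, ?_⟩
    · obtain ⟨z, hz⟩ := words_int (fun i => (hint i).1) (fun i => (hint i).2.1) K γ hγ
      simp only [AddMonoidHom.id_apply] at e1
      have e : Φ b.1 = Φ a.1 + z := by rw [← hz, ← map_add, e1]; ring_nf
      simp only [emb, fl, scaleHom_apply, hz, e, Int.floor_add_intCast]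
      push_cast
      ring
    · obtain ⟨z, hz⟩ := words_int (fun i => (hint i).2.2.1) (fun i => (hint i).2.2.2) K γ' hγ'
      simp only [AddMonoidHom.id_apply] at e2
      have e : Φ b.2 = Φ a.2 + z := by rw [← hz, ← map_add, e2]; ring_nf
      simp only [emb, fl, scaleHom_apply, hz, e, Int.floor_add_intCast]
      push_cast
      ring
  set F := boxCells lZ rZ sZ tZ with hF
  have hfloor : ∀ x : ℤ, ⌊((x : ℝ) / M) * M⌋ = x := fun x => by
    rw [div_mul_cancel₀ _ hMr.ne', Int.floor_intCast]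
  have hinj : ∀ n n' : ℤ × ℤ, emb n = emb n' → n = n' := by
    intro n n' h
    simp only [emb, Prod.mk.injEq] at h
    obtain ⟨h1, h2⟩ := h
    rw [div_left_inj' hMr.ne'] at h1 h2
    exact Prod.ext (by exact_mod_cast h1) (by exact_mod_cast h2)
  have hA : TilesPlane (fl '' T) F := by
    intro x
    obtain ⟨⟨p, i⟩, ⟨⟨a, ha, rfl⟩, hp⟩, huniq⟩ := hT1 (emb x)
    have hp' := (hbox (fl a) i (emb x)).1 hp
    simp only [emb, hfloor] at hp'
    refine ⟨x - fl a, ⟨mem_boxCells.2 ⟨i, hp'⟩, ⟨a, ha, (sub_sub_cancel x (fl a)).symm⟩⟩, ?_⟩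
    rintro f ⟨hf, a', ha', he⟩
    obtain ⟨i', hi'⟩ := mem_boxCells.1 hf
    have hp2 := (hbox (fl a') i' (emb x)).2 (by
      simp only [emb, hfloor, he, Prod.fst_sub, Prod.snd_sub, sub_sub_cancel]
      exact hi')
    have := huniq (emb (fl a'), i') ⟨⟨a', ha', rfl⟩, hp2⟩
    simp only [Prod.mk.injEq] at this
    rw [← hinj _ _ this.1, he, sub_sub_cancel]
  obtain ⟨A', P, hP, htile, hper⟩ := periodic_of_tilesPlane hA
  refine ⟨emb '' A', P, hP, ?_, ?_, ?_⟩
  · intro z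
    obtain ⟨f, ⟨hf, hfA⟩, huniq⟩ := htile (⌊z.1 * M⌋, ⌊z.2 * M⌋)
    obtain ⟨i, hi⟩ := mem_boxCells.1 hf
    have hp := (hbox ((⌊z.1 * M⌋, ⌊z.2 * M⌋) - f) i z).2 (by
      simp only [Prod.fst_sub, Prod.snd_sub, sub_sub_cancel]; exact hi)
    refine ⟨(emb ((⌊z.1 * M⌋, ⌊z.2 * M⌋) - f), i), ⟨⟨_, hfA, rfl⟩, hp⟩, ?_⟩
    rintro ⟨_, i'⟩ ⟨⟨n, hn, rfl⟩, hp'⟩
    have hp'' := (hbox n i' z).1 hp'
    have hfn : ((⌊z.1 * M⌋, ⌊z.2 * M⌋) : ℤ × ℤ) - n = f :=
      huniq _ ⟨mem_boxCells.2 ⟨i', by simpa using hp''⟩, by rwa [sub_sub_cancel]⟩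
    have hn' : ((⌊z.1 * M⌋, ⌊z.2 * M⌋) : ℤ × ℤ) - f = n := by rw [← hfn, sub_sub_cancel]
    rw [hn'] at hp ⊢
    simp only [Prod.mk.injEq, true_and]
    by_contra hne
    simp only at hp hp'
    rcases hS.disjoint i i' (Ne.symm hne) with h | h | h | h <;>
      linarith [hp.1.1, hp.1.2, hp.2.1, hp.2.2, hp'.1.1, hp'.1.2, hp'.2.1, hp'.2.2]
  all_goals
    have key : ∀ v : ℤ × ℤ, (∀ x, x + v ∈ A' ↔ x ∈ A') → Period (emb v) (emb '' A') := by
      intro v hv a
      constructor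
      · rintro ⟨n, hn, he⟩
        refine ⟨n - v, (hv _).1 (by rwa [sub_add_cancel]), ?_⟩
        simp only [emb, Prod.ext_iff, Prod.fst_add, Prod.snd_add] at he
        simp only [emb, Prod.fst_sub, Prod.snd_sub, Int.cast_sub, sub_div, Prod.ext_iff]
        constructor <;> linarith [he.1, he.2]
      · rintro ⟨n, hn, rfl⟩
        refine ⟨n + v, (hv _).2 hn, ?_⟩
        simp only [emb, Prod.fst_add, Prod.snd_add, Int.cast_add, add_div, Prod.mk_add_mk]
  · have h := Period.nat (key (P, 0) fun x => (hper x).1) M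
    have e : M • emb (P, 0) = ((P : ℝ), 0) := by
      simp [emb, Prod.smul_mk, nsmul_eq_mul, mul_div_cancel₀, hMr.ne']
    rwa [e] at h
  · have h := Period.nat (key (0, P) fun x => (hper x).2) M
    have e : M • emb (0, P) = (0, (P : ℝ)) := by
      simp [emb, Prod.smul_mk, nsmul_eq_mul, mul_div_cancel₀, hMr.ne']
    rwa [e] at h

/-- Pairs of words. -/
def Word2 (l r s t : ι → ℝ) (m : ℕ) (v : ℝ × ℝ) : Prop := v.1 ∈ words l r m ∧ v.2 ∈ words s t m

theorem Word2.add {m n : ℕ} {v w : ℝ × ℝ} (hv : Word2 l r s t m v) (hw : Word2 l r s t n w) :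
    Word2 l r s t (m + n) (v + w) :=
  ⟨add_mem_words hv.1 hw.1, add_mem_words hv.2 hw.2⟩

theorem Word2.sub {m n : ℕ} {v w : ℝ × ℝ} (hv : Word2 l r s t m v) (hw : Word2 l r s t n w) :
    Word2 l r s t (m + n) (v - w) :=
  ⟨sub_mem_words hv.1 hw.1, sub_mem_words hv.2 hw.2⟩

theorem Word2.mono {m n : ℕ} {v : ℝ × ℝ} (hmn : m ≤ n) (hv : Word2 l r s t m v) :
    Word2 l r s t n v :=
  ⟨words_mono l r hmn hv.1, words_mono s t hmn hv.2⟩

theorem Word2.zero (m : ℕ) : Word2 l r s t m 0 := ⟨zero_mem_words l r m, zero_mem_words s t m⟩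

theorem Word2.eq_zero {ψ : ℝ →+ ℝ} {K₀ : ℕ} {η : ℝ} (h : GoodMap l r s t ψ K₀ η) {m : ℕ}
    {v : ℝ × ℝ} (hm : m ≤ K₀) (hv : Word2 l r s t m v) (h0 : ψ.prodMap ψ v = 0) : v = 0 := by
  simp only [AddMonoidHom.coe_prodMap, Prod.map, Prod.mk_eq_zero] at h0
  exact Prod.ext (h.eq_zero (Or.inl (words_mono l r hm hv.1)) h0.1)
    (h.eq_zero (Or.inr (words_mono s t hm hv.2)) h0.2)

theorem lift_periodic (hs : IsBoxShape l r s t W H) {ψ : ℝ →+ ℝ} {K K₀ : ℕ} {η : ℝ}
    (hgood : GoodMap l r s t ψ K₀ η) (hη : η ≤ 1) {T' : Set (ℝ × ℝ)}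
    (hT' : BoxTiling (fun i => ψ (l i)) (fun i => ψ (r i)) (fun i => ψ (s i)) (fun i => ψ (t i)) T')
    {P : ℤ} (hP : 0 < P) (h1 : Period ((P : ℝ), 0) T') (h2 : Period (0, (P : ℝ)) T')
    {R : ℝ} (hR : 20 * (W + H + 4) ≤ R) (hnear : ∀ Y, Near l r s t ψ T' R K Y)
    (hK₀ : (8 * (⌈R⌉₊ + 2) + 2) * K + 2 ≤ K₀) : ∃ T, BoxTiling l r s t T ∧ Periodic T := by
  classical
  set D := ⌈R⌉₊ + 2 with hD
  have hDK : 2 * K ≤ D * K := Nat.mul_le_mul_right K (by omega)
  rw [show (8 * D + 2) * K + 2 = 8 * (D * K) + 2 * K + 2 by ring] at hK₀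
  have hS := hgood.shape hs (by omega)
  have hW := hs.wpos
  have hH := hs.hpos
  obtain ⟨iW, hiW⟩ := exists_right hs
  obtain ⟨iH, hiH⟩ := exists_right hs.swap
  have hWb := abs_le.1 (hgood.near W
    (Or.inl (words_mono l r (by omega) (hiW ▸ (mem_words_endpoint hs iW).2))))
  have hHb := abs_le.1 (hgood.near H
    (Or.inr (words_mono s t (by omega) (hiH ▸ (mem_words_endpoint hs.swap iH).2))))
  set Ψ := ψ.prodMap ψ with hΨ
  have faith : ∀ {m n : ℕ} {v w : ℝ × ℝ}, Word2 l r s t m v → Word2 l r s t n w → m + n ≤ K₀ →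
      Ψ v = Ψ w → v = w := fun hv hw hm he =>
    sub_eq_zero.1 ((hv.sub hw).eq_zero hgood hm (by rw [map_sub, ← hΨ, he, sub_self]))
  have hnb : ∀ a ∈ T', ∀ b ∈ T', |b.1 - a.1| ≤ R → |b.2 - a.2| ≤ R →
      ∃ v, Word2 l r s t K v ∧ Ψ v = b - a := by
    intro a ha b hb e1 e2
    obtain ⟨γ, hγ, γ', hγ', f1, f2⟩ :=
      hnear (min a.2 b.2) a ha b hb (min_le_left _ _) (min_le_right _ _) e1 e2
    exact ⟨(γ, γ'), ⟨hγ, hγ'⟩, Prod.ext f1 f2⟩
  -- owners of the integer points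
  have hown : ∀ z : ℤ × ℤ, ∃! p : (ℝ × ℝ) × ι, p.1 ∈ T' ∧
      (p.1.1 + ψ (l p.2) ≤ z.1 ∧ (z.1 : ℝ) < p.1.1 + ψ (r p.2)) ∧
      (p.1.2 + ψ (s p.2) ≤ z.2 ∧ (z.2 : ℝ) < p.1.2 + ψ (t p.2)) :=
    fun z => hT' ((z.1 : ℝ), (z.2 : ℝ))
  choose own hownS hownU using hown
  let base : ℤ × ℤ → ℝ × ℝ := fun z => (own z).1
  have hbase : ∀ z, base z ∈ T' ∧ (base z).1 ≤ z.1 ∧ (z.1 : ℝ) ≤ (base z).1 + (W + 1) ∧
      (base z).2 ≤ z.2 ∧ (z.2 : ℝ) ≤ (base z).2 + (H + 1) := by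
    intro z
    obtain ⟨m, ⟨a1, a2⟩, a3, a4⟩ := hownS z
    obtain ⟨b1, b2⟩ := hS.xrange (own z).2
    obtain ⟨b3, b4⟩ := hS.yrange (own z).2
    simp only [base]
    refine ⟨m, ?_, ?_, ?_, ?_⟩ <;> linarith
  have hstep : ∀ z z' : ℤ × ℤ, |(z'.1 : ℝ) - z.1| ≤ 4 → |(z'.2 : ℝ) - z.2| ≤ 4 →
      ∃ v, Word2 l r s t K v ∧ Ψ v = base z' - base z := by
    intro z z' e1 e2
    obtain ⟨m, a1, a2, a3, a4⟩ := hbase z
    obtain ⟨m', b1, b2, b3, b4⟩ := hbase z'
    rw [abs_le] at e1 e2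
    refine hnb _ m _ m' ?_ ?_ <;> rw [abs_le] <;> constructor <;> linarith
  choose gh hgh hghΨ using fun z : ℤ × ℤ =>
    hstep z (z.1 + 1, z.2) (by simp) (by simp)
  choose gv hgv hgvΨ using fun z : ℤ × ℤ =>
    hstep z (z.1, z.2 + 1) (by simp) (by simp)
  obtain ⟨pot, hph, hpv⟩ := exists_potential gh gv (fun n k => faith
    ((hgh (n, k)).add (hgv (n + 1, k))) ((hgv (n, k)).add (hgh (n, k + 1))) (by omega)
    (by rw [map_add, map_add, hghΨ, hgvΨ, hgvΨ, hghΨ]; abel))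
  have hkey : ∀ z, Ψ (pot z) - base z = Ψ (pot 0) - base 0 :=
    eq_of_grid (fun z => Ψ (pot z) - base z)
      (fun n k => by simp only [hph, map_add, hghΨ]; abel)
      (fun n k => by simp only [hpv, map_add, hgvΨ]; abel)
  have hdiff : ∀ z z', Ψ (pot z' - pot z) = base z' - base z := fun z z' => by
    have h := (hkey z').trans (hkey z).symm
    rw [map_sub]
    rw [sub_eq_sub_iff_sub_eq_sub] at h
    exact h
  -- short differences
  have hh : ∀ (d : ℕ) n k, Word2 l r s t (d * K) (pot (n + d, k) - pot (n, k)) := by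
    intro d
    induction d with
    | zero => intro n k; simpa using Word2.zero 0
    | succ d ih =>
      intro n k
      have e : pot (n + ((d + 1 : ℕ) : ℤ), k) - pot (n, k) =
          (pot (n + d, k) - pot (n, k)) + gh (n + d, k) := by
        rw [Nat.cast_succ, ← add_assoc, hph]; abel
      rw [e, Nat.succ_mul]
      exact (ih n k).add (hgh _)
  have hv : ∀ (d : ℕ) n k, Word2 l r s t (d * K) (pot (n, k + d) - pot (n, k)) := by
    intro d
    induction d with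
    | zero => intro n k; simpa using Word2.zero 0
    | succ d ih =>
      intro n k
      have e : pot (n, k + ((d + 1 : ℕ) : ℤ)) - pot (n, k) =
          (pot (n, k + d) - pot (n, k)) + gv (n, k + d) := by
        rw [Nat.cast_succ, ← add_assoc, hpv]; abel
      rw [e, Nat.succ_mul]
      exact (ih n k).add (hgv _)
  have hshort : ∀ z z' : ℤ × ℤ, |z'.1 - z.1| ≤ D → |z'.2 - z.2| ≤ D →
      Word2 l r s t (D * K + D * K) (pot z' - pot z) := by
    rintro ⟨n, k⟩ ⟨n', k'⟩ e1 e2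
    simp only at e1 e2
    have H1 : Word2 l r s t (D * K) (pot (n', k) - pot (n, k)) := by
      rcases le_total n n' with hle | hle
      · obtain ⟨d, rfl⟩ : ∃ d : ℕ, n' = n + d := ⟨(n' - n).toNat, by omega⟩
        rw [abs_le] at e1
        exact (hh d n k).mono (Nat.mul_le_mul_right K (by omega))
      · obtain ⟨d, rfl⟩ : ∃ d : ℕ, n = n' + d := ⟨(n - n').toNat, by omega⟩
        rw [abs_le] at e1
        have := ((Word2.zero 0).sub (hh d n' k)).mono
          (n := D * K) (by rw [zero_add]; exact Nat.mul_le_mul_right K (by omega))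
        rwa [zero_sub, neg_sub] at this
    have H2 : Word2 l r s t (D * K) (pot (n', k') - pot (n', k)) := by
      rcases le_total k k' with hle | hle
      · obtain ⟨d, rfl⟩ : ∃ d : ℕ, k' = k + d := ⟨(k' - k).toNat, by omega⟩
        rw [abs_le] at e2
        exact (hv d n' k).mono (Nat.mul_le_mul_right K (by omega))
      · obtain ⟨d, rfl⟩ : ∃ d : ℕ, k = k' + d := ⟨(k - k').toNat, by omega⟩
        rw [abs_le] at e2
        have := ((Word2.zero 0).sub (hv d n' k')).mono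
          (n := D * K) (by rw [zero_add]; exact Nat.mul_le_mul_right K (by omega))
        rwa [zero_sub, neg_sub] at this
    have := H2.add H1
    rwa [sub_add_sub_cancel] at this
  -- positions
  let cell : ℝ × ℝ → ℤ × ℤ := fun a => (⌊a.1⌋, ⌊a.2⌋)
  have hex : ∀ a : ℝ × ℝ, ∃ g, a ∈ T' → Word2 l r s t K g ∧ Ψ g = a - base (cell a) := by
    intro a
    by_cases ha : a ∈ T'
    · obtain ⟨m, a1, a2, a3, a4⟩ := hbase (cell a)
      have f1 := Int.floor_le a.1
      have f2 := Int.lt_floor_add_one a.1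
      have f3 := Int.floor_le a.2
      have f4 := Int.lt_floor_add_one a.2
      simp only [cell] at a1 a2 a3 a4
      obtain ⟨g, hg⟩ := hnb _ m a ha (by rw [abs_le]; constructor <;> linarith)
        (by rw [abs_le]; constructor <;> linarith)
      exact ⟨g, fun _ => hg⟩
    · exact ⟨0, fun h => absurd h ha⟩
  choose g hg using hex
  let τ : ℝ × ℝ → ℝ × ℝ := fun a => pot (cell a) + g a
  have hT : BoxTiling l r s t (τ '' T') := by
    refine transfer hs (ψ := ψ) (ψ' := AddMonoidHom.id ℝ) (K := K) (K₀ := K₀) hgood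
      (goodMap_id hgood.eta_nonneg) hη (by omega) hR hT' τ ?_
    intro a ha b hb e1 e2
    obtain ⟨v, hvK, hvΨ⟩ := hnb a ha b hb e1 e2
    obtain ⟨hga, hga'⟩ := hg a ha
    obtain ⟨hgb, hgb'⟩ := hg b hb
    have hfl : ∀ x y : ℝ, |y - x| ≤ R → |⌊y⌋ - ⌊x⌋| ≤ (D : ℤ) := by
      intro x y hxy
      rw [abs_le] at hxy
      have h1 := Int.floor_le x
      have h2 := Int.lt_floor_add_one x
      have h3 := Int.floor_le y
      have h4 := Int.lt_floor_add_one y
      have h5 := Nat.le_ceil R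
      have h6 : |((⌊y⌋ - ⌊x⌋ : ℤ) : ℝ)| ≤ ((D : ℤ) : ℝ) := by
        simp only [hD]
        push_cast
        rw [abs_le]; constructor <;> linarith
      exact_mod_cast h6
    have hw : Word2 l r s t ((D * K + D * K) + (K + K)) (τ b - τ a) := by
      have e := (hshort (cell a) (cell b) (hfl _ _ e1) (hfl _ _ e2)).add (hgb.sub hga)
      rwa [show pot (cell b) - pot (cell a) + (g b - g a) = τ b - τ a by simp only [τ]; abel] at e
    have he : v = τ b - τ a := faith hvK hw (by omega) (by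
      rw [show τ b - τ a = pot (cell b) - pot (cell a) + (g b - g a) by simp only [τ]; abel,
        map_add, map_sub Ψ (g b), hdiff, hga', hgb', hvΨ]
      abel)
    have q1 := congrArg Prod.fst hvΨ
    have q2 := congrArg Prod.snd hvΨ
    exact ⟨v.1, hvK.1, v.2, hvK.2, q1, q2, by rw [he]; rfl, by rw [he]; rfl⟩
  -- periods
  have hper : ∀ v : ℤ × ℤ, Period ((v.1 : ℝ), (v.2 : ℝ)) T' →
      ∃ c : ℝ × ℝ, (∀ z, pot (z + v) = pot z + c) ∧ Period c (τ '' T') := by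
    intro v hv'
    set vR : ℝ × ℝ := ((v.1 : ℝ), (v.2 : ℝ)) with hvR
    have hbs : ∀ z, base (z + v) = base z + vR := by
      intro z
      obtain ⟨m, ⟨a1, a2⟩, a3, a4⟩ := hownS z
      have := hownU (z + v) ((own z).1 + vR, (own z).2) ⟨(hv' _).2 m, by
        simp only [Prod.fst_add, hvR, Int.cast_add]; constructor <;> linarith, by
        simp only [Prod.snd_add, hvR, Int.cast_add]; constructor <;> linarith⟩
      simp only [base, ← this]
    have hpotv : ∀ z, pot (z + v) = pot z + (pot v - pot 0) := by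
      have key : ∀ z, pot (z + v) - pot z = pot (0 + v) - pot 0 :=
        eq_of_grid (fun z => pot (z + v) - pot z)
          (fun n k => by
            rw [show ((n + 1, k) : ℤ × ℤ) + v = (n + v.1 + 1, k + v.2) by ext <;> simp; ring,
              hph, hph, show ((n, k) : ℤ × ℤ) + v = (n + v.1, k + v.2) from rfl]
            have e : gh (n + v.1, k + v.2) = gh (n, k) := faith (hgh _) (hgh _) (by omega) (by
              rw [hghΨ, hghΨ]
              simp only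
              rw [show ((n + v.1 + 1, k + v.2) : ℤ × ℤ) = (n + 1, k) + v by ext <;> simp; ring,
                show ((n + v.1, k + v.2) : ℤ × ℤ) = (n, k) + v from rfl, hbs, hbs]
              abel)
            rw [e]; abel)
          (fun n k => by
            rw [show ((n, k + 1) : ℤ × ℤ) + v = (n + v.1, k + v.2 + 1) by ext <;> simp; ring,
              hpv, hpv, show ((n, k) : ℤ × ℤ) + v = (n + v.1, k + v.2) from rfl]
            have e : gv (n + v.1, k + v.2) = gv (n, k) := faith (hgv _) (hgv _) (by omega) (by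
              rw [hgvΨ, hgvΨ]
              simp only
              rw [show ((n + v.1, k + v.2 + 1) : ℤ × ℤ) = (n, k + 1) + v by ext <;> simp; ring,
                show ((n + v.1, k + v.2) : ℤ × ℤ) = (n, k) + v from rfl, hbs, hbs]
              abel)
            rw [e]; abel)
      intro z
      rw [← sub_eq_iff_eq_add', key, zero_add]
    refine ⟨pot v - pot 0, hpotv, ?_⟩
    · have hτ : ∀ a ∈ T', τ (a + vR) = τ a + (pot v - pot 0) := by
        intro a ha
        have hc : cell (a + vR) = cell a + v := by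
          simp only [cell, hvR, Prod.fst_add, Prod.snd_add, Int.floor_add_intCast]
          rfl
        have hpot : pot (cell a + v) = pot (cell a) + (pot v - pot 0) := hpotv _
        have ha' := (hv' a).2 ha
        obtain ⟨hga, hga'⟩ := hg a ha
        obtain ⟨hgb, hgb'⟩ := hg _ ha'
        have eg : g (a + vR) = g a := faith hgb hga (by omega) (by
          rw [hgb', hga', hc, hbs]; abel)
        simp only [τ, eg, hc, hpot]
        abel
      intro x
      constructor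
      · rintro ⟨a, ha, he⟩
        refine ⟨a - vR, (hv' _).1 (by rwa [sub_add_cancel]), ?_⟩
        have := hτ (a - vR) ((hv' _).1 (by rwa [sub_add_cancel]))
        rw [sub_add_cancel, he] at this
        exact (add_right_cancel this).symm
      · rintro ⟨a, ha, rfl⟩
        exact ⟨a + vR, (hv' a).2 ha, hτ a ha⟩
  -- steps of length four show that the two periods are independent
  have herr : ∀ (v : ℤ × ℤ), |(v.1 : ℝ)| ≤ 4 → |(v.2 : ℝ)| ≤ 4 → ∀ z : ℤ × ℤ,
      |(pot (z + v) - pot z).1 - (base (z + v) - base z).1| ≤ 1 ∧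
      |(pot (z + v) - pot z).2 - (base (z + v) - base z).2| ≤ 1 := by
    intro v e1 e2 z
    obtain ⟨w, hw, hwΨ⟩ := hstep z (z + v) (by simpa using e1) (by simpa using e2)
    have hD4 : 4 ≤ D := by
      have h4 : (4 : ℝ) ≤ ⌈R⌉₊ := le_trans (by linarith) (Nat.le_ceil R)
      have : 4 ≤ ⌈R⌉₊ := by exact_mod_cast h4
      omega
    have e1' : |v.1| ≤ 4 := by exact_mod_cast e1
    have e2' : |v.2| ≤ 4 := by exact_mod_cast e2
    have he : w = pot (z + v) - pot z := faith hw (hshort z (z + v)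
      (by simp only [Prod.fst_add, add_sub_cancel_left]; omega)
      (by simp only [Prod.snd_add, add_sub_cancel_left]; omega)) (by omega) (by rw [hwΨ, hdiff])
    have g1 := abs_le.1 (hgood.near w.1 (Or.inl (words_mono l r (by omega) hw.1)))
    have g2 := abs_le.1 (hgood.near w.2 (Or.inr (words_mono s t (by omega) hw.2)))
    have q1 : ψ w.1 = (base (z + v) - base z).1 := congrArg Prod.fst hwΨ
    have q2 : ψ w.2 = (base (z + v) - base z).2 := congrArg Prod.snd hwΨ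
    rw [← he, abs_le, abs_le]
    refine ⟨⟨?_, ?_⟩, ?_, ?_⟩ <;> linarith
  have hsum : ∀ (v : ℤ × ℤ), |(v.1 : ℝ)| ≤ 4 → |(v.2 : ℝ)| ≤ 4 → ∀ n : ℕ,
      |(pot (n • v) - pot 0).1 - (base (n • v) - base 0).1| ≤ n ∧
      |(pot (n • v) - pot 0).2 - (base (n • v) - base 0).2| ≤ n := by
    intro v e1 e2 n
    induction n with
    | zero => simp
    | succ n ih =>
      obtain ⟨a1, a2⟩ := herr v e1 e2 (n • v)
      obtain ⟨b1, b2⟩ := ih
      rw [succ_nsmul]
      simp only [Prod.fst_sub, Prod.snd_sub, abs_le] at a1 a2 b1 b2 ⊢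
      push_cast
      refine ⟨⟨?_, ?_⟩, ?_, ?_⟩ <;> linarith
  obtain ⟨p, rfl⟩ : ∃ p : ℕ, P = p := ⟨P.toNat, by omega⟩
  have hp : (0 : ℝ) < p := by exact_mod_cast hP
  have hbase4 : ∀ v : ℤ × ℤ, Period ((v.1 : ℝ), (v.2 : ℝ)) T' →
      base v - base 0 = ((v.1 : ℝ), (v.2 : ℝ)) := by
    intro v hv'
    obtain ⟨m, ⟨a1, a2⟩, a3, a4⟩ := hownS 0
    have := hownU v ((own 0).1 + ((v.1 : ℝ), (v.2 : ℝ)), (own 0).2) ⟨(hv' _).2 m, by
      simp only [Prod.fst_add] at a1 a2 ⊢; simp only [Prod.fst_zero, Int.cast_zero] at a1 a2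
      constructor <;> linarith, by
      simp only [Prod.snd_add] at a3 a4 ⊢; simp only [Prod.snd_zero, Int.cast_zero] at a3 a4
      constructor <;> linarith⟩
    simp only [base, ← this, add_sub_cancel_left]
  have k1 : Period ((((4 * (p : ℤ), (0 : ℤ)).1 : ℤ) : ℝ),
      (((4 * (p : ℤ), (0 : ℤ)).2 : ℤ) : ℝ)) T' := by
    have := Period.nat h1 4
    simpa [Prod.smul_mk, nsmul_eq_mul] using this
  have k2 : Period (((((0 : ℤ), 4 * (p : ℤ)).1 : ℤ) : ℝ),
      ((((0 : ℤ), 4 * (p : ℤ)).2 : ℤ) : ℝ)) T' := by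
    have := Period.nat h2 4
    simpa [Prod.smul_mk, nsmul_eq_mul] using this
  obtain ⟨C, hC, hCT⟩ := hper _ k1
  obtain ⟨C', hC', hC'T⟩ := hper _ k2
  refine ⟨τ '' T', hT, C, C', ?_, hCT, hC'T⟩
  have u1 := hsum (4, 0) (by norm_num) (by norm_num) p
  have u2 := hsum (0, 4) (by norm_num) (by norm_num) p
  have ev1 : p • ((4, 0) : ℤ × ℤ) = (4 * (p : ℤ), 0) := by ext <;> simp [mul_comm]
  have ev2 : p • ((0, 4) : ℤ × ℤ) = (0, 4 * (p : ℤ)) := by ext <;> simp [mul_comm]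
  rw [ev1, hbase4 _ k1] at u1
  rw [ev2, hbase4 _ k2] at u2
  have c1 := hC 0
  have c2 := hC' 0
  rw [zero_add] at c1 c2
  rw [c1, add_sub_cancel_left] at u1
  rw [c2, add_sub_cancel_left] at u2
  simp only [abs_le] at u1 u2
  push_cast at u1 u2
  rw [LinearIndependent.pair_iff]
  intro a b hab
  simp only [Prod.ext_iff, Prod.fst_add, Prod.snd_add, Prod.smul_fst, Prod.smul_snd,
    smul_eq_mul, Prod.fst_zero, Prod.snd_zero] at hab
  have hdet : 0 < C.1 * C'.2 - C.2 * C'.1 := by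
    have : |C.2 * C'.1| ≤ (p : ℝ) * p := by
      rw [abs_mul]
      exact mul_le_mul (abs_le.2 ⟨by linarith [u1.2.1], by linarith [u1.2.2]⟩)
        (abs_le.2 ⟨by linarith [u2.1.1], by linarith [u2.1.2]⟩) (abs_nonneg _) hp.le
    have : (3 * (p : ℝ)) * (3 * p) ≤ C.1 * C'.2 :=
      mul_le_mul (by linarith [u1.1.1]) (by linarith [u2.2.1]) (by positivity)
        (by linarith [u1.1.1])
    linarith [le_abs_self (C.2 * C'.1), mul_pos hp hp]
  constructor
  · have : a * (C.1 * C'.2 - C.2 * C'.1) = 0 := by linear_combination C'.2 * hab.1 - C'.1 * hab.2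
    exact (mul_eq_zero.1 this).resolve_right hdet.ne'
  · have : b * (C.1 * C'.2 - C.2 * C'.1) = 0 := by linear_combination C.1 * hab.2 - C.2 * hab.1
    exact (mul_eq_zero.1 this).resolve_right hdet.ne'

end Vale.Agent.P043.Rect
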