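import Mathlib
import Vale.Agent.P043.Rect.Grid
import Vale.Agent.P043.Rect.Fault
import Vale.Agent.P043.Rect.Boxes
import Vale.Agent.P043.Rows.Main

/-!
Helper for P043: rectilinear tiles with interval projections have periodic tilings.
-/

namespace Vale.Agent.P043.Rect

open Vale.Agent.P043.Rows Filter MeasureTheory

set_option linter.unusedSectionVars false

variable {ι : Type} [Fintype ι] {l r s t : ι → ℝ} {W H : ℝ}

/-- Longer and longer uncrossed segments give a fault line. -/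
theorem fault_of_segments (hs : IsBoxShape l r s t W H) (l' r' s' t' : ℕ → ι → ℝ) (W' H' : ℕ → ℝ)
    (hs' : ∀ n, IsBoxShape (l' n) (r' n) (s' n) (t' n) (W' n) (H' n))
    (hl : ∀ i, Tendsto (fun n => l' n i) atTop (nhds (l i)))
    (hr : ∀ i, Tendsto (fun n => r' n i) atTop (nhds (r i)))
    (hsl : ∀ i, Tendsto (fun n => s' n i) atTop (nhds (s i)))
    (ht : ∀ i, Tendsto (fun n => t' n i) atTop (nhds (t i)))
    (hW : ∀ n, W' n ≤ W + 1)
    (T' : ℕ → Set (ℝ × ℝ)) (hT' : ∀ n, BoxTiling (l' n) (r' n) (s' n) (t' n) (T' n))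
    (L : ℕ → ℝ) (hL : Tendsto L atTop atTop)
    (hseg : ∀ n, ∃ x y, ∀ p ∈ lineSet (s' n) (t' n) (T' n) y,
      |pieceX (l' n) p - x| ≤ L n → p.1.2 = y) :
    ∃ T, BoxTiling l r s t T ∧ Fault s t T 0 := by
  choose xs ys hxy using hseg
  obtain ⟨T, hT, hfault, -, -⟩ := box_limit hs l' r' s' t' W' H' hs' hl hr hsl ht
    (fun n => {a | a + (xs n, ys n) ∈ T' n}) (fun n => (hT' n).translate _)
  refine ⟨T, hT, hfault (fun n => L n - (W + 1)) (tendsto_atTop_add_const_right _ _ hL) ?_⟩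
  rintro n ⟨⟨a, b⟩, i⟩ ⟨hm, e1, e2⟩ ha
  simp only [Set.mem_ofPred_eq, Prod.mk_add_mk] at hm
  simp only at ha e1 e2 ⊢
  have ha' := abs_le.1 ha
  have := (hs' n).xrange i
  have := (hs' n).lt i
  have := hW n
  have := hxy n ((a + xs n, b + ys n), i) ⟨hm, by simp only; linarith, by simp only; linarith⟩
    (by simp only [pieceX]; rw [abs_le]; constructor <;> linarith)
  simp only at this
  linarith

theorem exists_subseq {Q : ℕ → Prop} (h : ∀ N, ∃ n, N ≤ n ∧ Q n) :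
    ∃ f : ℕ → ℕ, Tendsto f atTop atTop ∧ ∀ N, Q (f N) := by
  choose f hf hQ using h
  exact ⟨f, tendsto_atTop_mono hf tendsto_id, hQ⟩

/-- Tilings by the boxes yield periodic ones. -/
theorem periodic_boxTiling (hs : IsBoxShape l r s t W H) {T₀ : Set (ℝ × ℝ)}
    (hT₀ : BoxTiling l r s t T₀) : ∃ T, BoxTiling l r s t T ∧ Periodic T := by
  classical
  by_cases hfh : ∃ T, BoxTiling l r s t T ∧ Fault s t T 0
  · obtain ⟨T, hT, hf⟩ := hfh
    exact periodic_of_fault hs hT hf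
  by_cases hfv : ∃ T, BoxTiling s t l r T ∧ Fault l r T 0
  · obtain ⟨T, hT, hf⟩ := hfv
    obtain ⟨T', hT', hper⟩ := periodic_of_fault hs.swap hT hf
    exact ⟨swapSet T', hT'.swap, periodic_swap hper⟩
  obtain ⟨δ, hδ0, hδ⟩ := hs.exists_min
  have hW := hs.wpos
  have hH := hs.hpos
  -- the given tiling is linked
  have base : ∀ {l r s t : ι → ℝ} {W H : ℝ} {T : Set (ℝ × ℝ)}, IsBoxShape l r s t W H →
      BoxTiling l r s t T → (¬ ∃ T, BoxTiling l r s t T ∧ Fault s t T 0) →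
      ∃ L : ℝ, ∀ x y, ∃ p ∈ lineSet s t T y, |pieceX l p - x| ≤ L ∧ p.1.2 < y := by
    intro l r s t W H T hs hT hno
    by_contra hc
    push Not at hc
    refine hno (fault_of_segments hs (fun _ => l) (fun _ => r) (fun _ => s) (fun _ => t)
      (fun _ => W) (fun _ => H) (fun _ => hs) (fun _ => tendsto_const_nhds)
      (fun _ => tendsto_const_nhds) (fun _ => tendsto_const_nhds) (fun _ => tendsto_const_nhds)
      (fun _ => by linarith) (fun _ => T) (fun _ => hT) (fun n => (n : ℝ))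
      tendsto_natCast_atTop_atTop (fun n => ?_))
    obtain ⟨x, y, h⟩ := hc n
    exact ⟨x, y, fun p hp hd => le_antisymm (base_le hs hp).1 (h p hp hd)⟩
  obtain ⟨L₁, hL₁⟩ := base hs hT₀ hfh
  obtain ⟨L₂, hL₂⟩ := base hs.swap hT₀.swap hfv
  set R := 20 * (W + H + 4)
  obtain ⟨NT, hNT⟩ := exists_nat_ge ((max L₁ L₂ + R + 4 * (W + H)) / δ)
  obtain ⟨nT, hnT⟩ := exists_nat_ge ((R + 3 * (W + H)) / δ)
  rw [div_le_iff₀ hδ0] at hNT hnT
  set KT := nT * (NT + NT) + NT
  have hnear₀ : ∀ Y, Near l r s t (AddMonoidHom.id ℝ) T₀ R KT Y := fun Y =>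
    near_of_linked (ψ := AddMonoidHom.id ℝ) (L := max L₁ L₂) (Y := Y) hs hT₀ hδ0 hδ le_rfl
      (fun x y _ => by
        obtain ⟨p, hp, hd, hlt⟩ := hL₁ x y
        exact ⟨p, hp, hd.trans (le_max_left _ _), hlt⟩)
      (fun x y _ => by
        obtain ⟨p, hp, hd, hlt⟩ := hL₂ y x
        exact ⟨p, hp, hd.trans (le_max_right _ _), hlt⟩) hNT hnT
  -- models
  set δ' := δ / 2
  have hδ'0 : 0 < δ' := by simp only [δ']; linarith
  let N : ℕ → ℕ := fun k => ⌈((k : ℝ) + R + 4 * (W + H + 2)) / δ'⌉₊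
  let n : ℕ := ⌈(R + 3 * (W + H + 2)) / δ'⌉₊
  let K : ℕ → ℕ := fun k => n * (N k + N k) + N k
  let K₀ : ℕ → ℕ := fun k => (8 * (⌈R⌉₊ + 2) + 2) * K k + 2 + (2 * KT + 2)
  let η : ℕ → ℝ := fun k => min (1 / ((k : ℝ) + 1)) (δ / 4)
  have hη0 : ∀ k, 0 < η k := fun k => lt_min (by positivity) (by linarith)
  have hη1 : ∀ k, η k ≤ 1 := fun k => (min_le_left _ _).trans (by
    rw [div_le_one (by positivity)]; linarith [Nat.cast_nonneg (α := ℝ) k])
  choose Φ M hM hint hgood using fun k => exists_goodMap hs (K₀ k) (hη0 k)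
  let ψ : ℕ → ℝ →+ ℝ := fun k => scaleHom (Φ k) (M k)
  have hgood' : ∀ k, GoodMap l r s t (ψ k) (K₀ k) (η k) := hgood
  have hK₀ : ∀ k, 2 ≤ K₀ k := fun k => by simp only [K₀]; omega
  have hshape : ∀ k, IsBoxShape (fun i => ψ k (l i)) (fun i => ψ k (r i)) (fun i => ψ k (s i))
      (fun i => ψ k (t i)) (ψ k W) (ψ k H) := fun k => (hgood' k).shape hs (hK₀ k)
  have hw : ∀ k (i : ι), |ψ k (l i) - l i| ≤ η k ∧ |ψ k (r i) - r i| ≤ η k ∧
      |ψ k (s i) - s i| ≤ η k ∧ |ψ k (t i) - t i| ≤ η k := fun k i => by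
    have a := mem_words_endpoint hs i
    have b := mem_words_endpoint hs.swap i
    have h1 : 1 ≤ K₀ k := by have := hK₀ k; omega
    exact ⟨(hgood' k).near _ (Or.inl (words_mono l r h1 a.1)),
      (hgood' k).near _ (Or.inl (words_mono l r h1 a.2)),
      (hgood' k).near _ (Or.inr (words_mono s t h1 b.1)),
      (hgood' k).near _ (Or.inr (words_mono s t h1 b.2))⟩
  have hWH : ∀ k, ψ k W ≤ W + 1 ∧ ψ k H ≤ H + 1 := fun k => by
    obtain ⟨i, hi⟩ := exists_right hs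
    obtain ⟨i', hi'⟩ := exists_right hs.swap
    have a := abs_le.1 (hw k i).2.1
    have b := abs_le.1 (hw k i').2.2.2
    rw [hi] at a
    rw [hi'] at b
    exact ⟨by linarith [hη1 k], by linarith [hη1 k]⟩
  have hper : ∀ k, ∃ (T' : Set (ℝ × ℝ)) (P : ℤ), 0 < P ∧ BoxTiling (fun i => ψ k (l i))
      (fun i => ψ k (r i)) (fun i => ψ k (s i)) (fun i => ψ k (t i)) T' ∧
      Period ((P : ℝ), 0) T' ∧ Period (0, (P : ℝ)) T' := fun k =>
    exists_periodic_model hs (hM k) (hint k) (hgood k) (hη1 k) hT₀ le_rfl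
      (by simp only [K₀]; omega) hnear₀
  choose T P hP hT hP1 hP2 using hper
  by_cases hlinked : ∃ k, (∀ x y, ∃ p ∈ lineSet (fun i => ψ k (s i)) (fun i => ψ k (t i)) (T k) y,
        |pieceX (fun i => ψ k (l i)) p - x| ≤ k ∧ p.1.2 < y) ∧
      ∀ x y, ∃ p ∈ lineSet (fun i => ψ k (l i)) (fun i => ψ k (r i)) (swapSet (T k)) y,
        |pieceX (fun i => ψ k (s i)) p - x| ≤ k ∧ p.1.2 < y
  · obtain ⟨k, hk1, hk2⟩ := hlinked
    have hδk : ∀ i, ψ k (l i) + δ' ≤ ψ k (r i) ∧ ψ k (s i) + δ' ≤ ψ k (t i) := fun i => by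
      obtain ⟨a, b, c, d⟩ := hw k i
      rw [abs_le] at a b c d
      have := min_le_right (1 / ((k : ℝ) + 1)) (δ / 4)
      simp only [δ', η] at a b c d ⊢
      obtain ⟨e1, e2⟩ := hδ i
      constructor <;> linarith
    have hN : (k : ℝ) + R + 4 * (ψ k W + ψ k H) ≤ N k * δ' := by
      have := Nat.le_ceil (((k : ℝ) + R + 4 * (W + H + 2)) / δ')
      rw [div_le_iff₀ hδ'0] at this
      linarith [hWH k]
    have hn : R + 3 * (ψ k W + ψ k H) ≤ n * δ' := by
      have := Nat.le_ceil ((R + 3 * (W + H + 2)) / δ')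
      rw [div_le_iff₀ hδ'0] at this
      linarith [hWH k]
    have hnear : ∀ Y, Near l r s t (ψ k) (T k) R (K k) Y := fun Y =>
      near_of_linked (Y := Y) (hshape k) (hT k) hδ'0 hδk le_rfl (fun x y _ => hk1 x y)
        (fun x y _ => hk2 y x) hN hn
    exact lift_periodic hs (hgood' k) (hη1 k) (hT k) (hP k) (hP1 k) (hP2 k) le_rfl hnear
      (by simp only [K₀, R]; omega)
  exfalso
  push Not at hlinked
  have hlim : ∀ (f : ℕ → ℕ), Tendsto f atTop atTop → ∀ (g : ι → ℝ),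
      (∀ k i, |ψ k (g i) - g i| ≤ η k) →
      ∀ i, Tendsto (fun N => ψ (f N) (g i)) atTop (nhds (g i)) := fun f hf g hg i => by
    have : Tendsto (fun k => ψ k (g i)) atTop (nhds (g i)) := by
      rw [tendsto_iff_norm_sub_tendsto_zero]
      exact squeeze_zero (fun k => norm_nonneg _)
        (fun k => (hg k i).trans (min_le_left _ _)) tendsto_one_div_add_atTop_nhds_zero_nat
    exact this.comp hf
  by_cases hmany : ∀ N : ℕ, ∃ k, N ≤ k ∧ ¬ ∀ x y,
      ∃ p ∈ lineSet (fun i => ψ k (s i)) (fun i => ψ k (t i)) (T k) y,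
        |pieceX (fun i => ψ k (l i)) p - x| ≤ k ∧ p.1.2 < y
  · obtain ⟨f, hf, hbad⟩ := exists_subseq hmany
    refine hfh (fault_of_segments hs (fun N i => ψ (f N) (l i)) (fun N i => ψ (f N) (r i))
      (fun N i => ψ (f N) (s i)) (fun N i => ψ (f N) (t i)) (fun N => ψ (f N) W)
      (fun N => ψ (f N) H) (fun N => hshape _) (hlim f hf l fun k i => (hw k i).1)
      (hlim f hf r fun k i => (hw k i).2.1) (hlim f hf s fun k i => (hw k i).2.2.1)
      (hlim f hf t fun k i => (hw k i).2.2.2) (fun N => (hWH _).1) (fun N => T (f N))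
      (fun N => hT _) (fun N => (f N : ℝ)) (tendsto_natCast_atTop_atTop.comp hf) (fun N => ?_))
    obtain ⟨x, y, h⟩ : ∃ x y, ∀ p ∈ lineSet (fun i => ψ (f N) (s i)) (fun i => ψ (f N) (t i))
        (T (f N)) y, |pieceX (fun i => ψ (f N) (l i)) p - x| ≤ (f N : ℝ) → y ≤ p.1.2 := by
      have := hbad N
      push Not at this
      exact this
    exact ⟨x, y, fun p hp hd => le_antisymm (base_le (hshape _) hp).1 (h p hp hd)⟩
  · push Not at hmany
    obtain ⟨N₀, hN₀⟩ := hmany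
    let f : ℕ → ℕ := fun N => N₀ + N
    have hf : Tendsto f atTop atTop := tendsto_atTop_mono (fun N => by simp [f]) tendsto_id
    refine hfv (fault_of_segments hs.swap (fun N i => ψ (f N) (s i)) (fun N i => ψ (f N) (t i))
      (fun N i => ψ (f N) (l i)) (fun N i => ψ (f N) (r i)) (fun N => ψ (f N) H)
      (fun N => ψ (f N) W) (fun N => (hshape _).swap) (hlim f hf s fun k i => (hw k i).2.2.1)
      (hlim f hf t fun k i => (hw k i).2.2.2) (hlim f hf l fun k i => (hw k i).1)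
      (hlim f hf r fun k i => (hw k i).2.1) (fun N => (hWH _).2) (fun N => swapSet (T (f N)))
      (fun N => (hT _).swap) (fun N => (f N : ℝ)) (tendsto_natCast_atTop_atTop.comp hf)
      (fun N => ?_))
    obtain ⟨x, y, h⟩ := hlinked (f N) (hN₀ (f N) (by simp [f]))
    exact ⟨x, y, fun p hp hd => le_antisymm (base_le (hshape _).swap hp).1 (h p hp hd)⟩

/-- Periodic tilings for linear images of rectangle unions with interval projections. -/
theorem periodic_of_rectSet (L : (ℝ × ℝ) ≃ₗ[ℝ] (ℝ × ℝ))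
    (R : Finset ((ℝ × ℝ) × (ℝ × ℝ))) (hR : ∀ ρ ∈ R, ρ.1.1 < ρ.1.2 ∧ ρ.2.1 < ρ.2.2)
    (hx : (Prod.fst '' rectSet R).OrdConnected) (hy : (Prod.snd '' rectSet R).OrdConnected)
    (A : Set (ℝ × ℝ)) (hA : TilesUpToNull (L '' rectSet R) A) :
    ∃ (A' : Set (ℝ × ℝ)) (u v : ℝ × ℝ), LinearIndependent ℝ ![u, v] ∧
      TilesUpToNull (L '' rectSet R) A' ∧
      ∀ x, (x + u ∈ A' ↔ x ∈ A') ∧ (x + v ∈ A' ↔ x ∈ A') := by
  have hne : R.Nonempty := by
    rcases R.eq_empty_or_nonempty with rfl | h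
    · exfalso
      have := hA.1
      simp [rectSet, ae_iff] at this
    · exact h
  obtain ⟨ι, _, l, r, s, t, W, H, w, hs, hsub, hnull⟩ := exists_boxShape R hR hne hx hy
  have hA0 : TilesUpToNull (rectSet R) (L.symm '' A) := by
    have := tilesUpToNull_linear L.symm hA
    rwa [← Set.image_comp, show ((L.symm : ℝ × ℝ → ℝ × ℝ) ∘ L) = id by ext <;> simp,
      Set.image_id] at this
  have hT₀ := boxTiling_of_ae hs hsub hnull (tilesUpToNull_shift w hA0)
  obtain ⟨T, hT, u, v, huv, hu, hv⟩ := periodic_boxTiling hs hT₀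
  have h1 := tilesUpToNull_shift (-w) (ae_of_boxTiling hs hsub hnull hT)
  rw [show (fun z => z + -w) ⁻¹' ((fun z => z + w) ⁻¹' rectSet R) = rectSet R by
    ext z; simp] at h1
  have h2 := tilesUpToNull_linear L h1
  refine ⟨_, L u, L v, ?_, h2, fun x => ?_⟩
  · have := huv.map' (L : (ℝ × ℝ) →ₗ[ℝ] (ℝ × ℝ)) (LinearEquiv.ker L)
    rw [show (L : (ℝ × ℝ) →ₗ[ℝ] (ℝ × ℝ)) ∘ ![u, v] = ![L u, L v] by
      ext i <;> fin_cases i <;> simp] at this
    exact this
  · have key : ∀ (u : ℝ × ℝ), Period u T → (x + L u ∈ L '' ((fun a => a + -w) '' T) ↔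
        x ∈ L '' ((fun a => a + -w) '' T)) := by
      intro u hu
      simp only [Set.mem_image, exists_exists_and_eq_and]
      constructor
      · rintro ⟨y, hy, he⟩
        refine ⟨y - u, (hu _).1 (by simpa using hy), ?_⟩
        rw [show y - u + -w = y + -w - u by abel, map_sub, he, add_sub_cancel_right]
      · rintro ⟨y, hy, rfl⟩
        exact ⟨y + u, (hu _).2 hy, by rw [← map_add]; congr 1; abel⟩
    exact ⟨key u hu, key v hv⟩

end Vale.Agent.P043.Rect
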